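import Mathlib

set_option autoImplicit false

/-!
# Sums of unit fractions (with repetition) and the distinctness fix
-/

namespace Crest.Agent.Egypt

/-- `r` is a sum of at most `T` unit fractions, repetition allowed (a zero denominator
contributes `1/0 = 0`, i.e. nothing). -/
def Rep (r : ℚ) (T : ℕ) : Prop := ∃ f : Fin T → ℕ, ∑ i, (1 : ℚ) / (f i : ℚ) = r

theorem rep_zero (T : ℕ) : Rep 0 T := ⟨fun _ => 0, by simp⟩

theorem rep_add {r r' : ℚ} {T T' : ℕ} (h : Rep r T) (h' : Rep r' T') :
    Rep (r + r') (T + T') := by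
  obtain ⟨f, hf⟩ := h
  obtain ⟨g, hg⟩ := h'
  refine ⟨Fin.append f g, ?_⟩
  rw [Fin.sum_univ_add]
  simp only [Fin.append_left, Fin.append_right]
  rw [hf, hg]

theorem rep_mono {r : ℚ} {T T' : ℕ} (h : Rep r T) (hT : T ≤ T') : Rep r T' := by
  obtain ⟨c, rfl⟩ := Nat.exists_eq_add_of_le hT
  simpa using rep_add h (rep_zero c)

theorem rep_unit (n : ℕ) : Rep ((1 : ℚ) / n) 1 := ⟨fun _ => n, by simp⟩

/-- Takenouchi: duplicates can be removed without increasing the number of terms. -/
theorem rep_distinct {r : ℚ} (hr1 : r < 1) {T : ℕ} (h : Rep r T) :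
    ∃ S : Finset ℕ, (∀ n ∈ S, 2 ≤ n) ∧ S.card ≤ T ∧ ∑ n ∈ S, (1 : ℚ) / (n : ℚ) = r := by
  classical
  let F : Set (Lex (Fin T → ℕ)) := {f | ∑ i, (1 : ℚ) / ((ofLex f) i : ℚ) = r}
  have hF : F.Nonempty := by
    obtain ⟨f, hf⟩ := h
    exact ⟨toLex f, hf⟩
  have hwf : WellFounded ((· < ·) : Lex (Fin T → ℕ) → Lex (Fin T → ℕ) → Prop) :=
    wellFounded_lt
  obtain ⟨f, hfF, hmin⟩ := hwf.has_min F hF
  have hsum : ∑ i, (1 : ℚ) / ((ofLex f) i : ℚ) = r := hfF
  set g : Fin T → ℕ := ofLex f with hg
  have hne1 : ∀ i, g i ≠ 1 := by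
    intro i hi
    have : (1 : ℚ) / (g i : ℚ) ≤ ∑ i, (1 : ℚ) / (g i : ℚ) :=
      Finset.single_le_sum (f := fun i => (1 : ℚ) / (g i : ℚ)) (fun j _ => by positivity)
        (Finset.mem_univ i)
    rw [hsum, hi] at this
    norm_num at this
    linarith
  -- no duplicates among nonzero values
  have key : ∀ i j, i < j → g i = g j → g i = 0 := by
    intro i j hij heq
    by_contra h0
    have h1 := hne1 i
    set n := g i with hn
    -- new values
    obtain ⟨p, q, hp, hpq⟩ : ∃ p q : ℕ, p < n ∧
        (1 : ℚ) / p + 1 / q = 1 / n + 1 / n := by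
      rcases Nat.even_or_odd n with he | ho
      · obtain ⟨m, hm⟩ := he
        have hm0 : m ≠ 0 := by omega
        refine ⟨m, 0, by omega, ?_⟩
        have : (m : ℚ) ≠ 0 := by exact_mod_cast hm0
        rw [hm]
        push_cast
        field_simp
        ring
      · obtain ⟨m, hm⟩ := ho
        have hm0 : m ≠ 0 := by omega
        refine ⟨m + 1, n * (m + 1), by omega, ?_⟩
        have h1 : (m : ℚ) + 1 ≠ 0 := by positivity
        have h2 : (2 * (m : ℚ) + 1) ≠ 0 := by positivity
        rw [hm]
        push_cast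
        field_simp
        ring
    let g' : Fin T → ℕ := Function.update (Function.update g i p) j q
    have hij' : i ≠ j := ne_of_lt hij
    have hg'i : g' i = p := by
      simp [g', Function.update_of_ne hij']
    have hg'j : g' j = q := by simp [g']
    have hg'o : ∀ k, k ≠ i → k ≠ j → g' k = g k := by
      intro k hki hkj
      simp [g', Function.update_of_ne hki, Function.update_of_ne hkj]
    have hmem : toLex g' ∈ F := by
      change ∑ k, (1 : ℚ) / (g' k : ℚ) = r
      rw [← hsum]
      have e1 : ∀ (u : Fin T → ℕ), ∑ k, (1 : ℚ) / (u k : ℚ) =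
          1 / (u i : ℚ) + (1 / (u j : ℚ) + ∑ k ∈ (Finset.univ.erase i).erase j,
            (1 : ℚ) / (u k : ℚ)) := by
        intro u
        rw [← Finset.add_sum_erase _ _ (Finset.mem_univ i)]
        rw [← Finset.add_sum_erase (Finset.univ.erase i) _
          (Finset.mem_erase.mpr ⟨hij'.symm, Finset.mem_univ j⟩)]
      rw [e1 g', e1 g, hg'i, hg'j, ← heq, ← hn]
      have e2 : ∑ k ∈ (Finset.univ.erase i).erase j, (1 : ℚ) / (g' k : ℚ) =
          ∑ k ∈ (Finset.univ.erase i).erase j, (1 : ℚ) / (g k : ℚ) := by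
        refine Finset.sum_congr rfl fun k hk => ?_
        simp only [Finset.mem_erase, Finset.mem_univ, and_true] at hk
        rw [hg'o k hk.2 hk.1]
      rw [e2]
      linarith
    have hlt : toLex g' < f := by
      refine ⟨i, ?_, ?_⟩
      · intro k hk
        change g' k = g k
        exact hg'o k (ne_of_lt hk) (ne_of_lt (lt_trans hk hij))
      · change g' i < g i
        rw [hg'i]
        exact hp
    exact hmin _ hmem hlt
  refine ⟨(Finset.univ.image g).erase 0, ?_, ?_, ?_⟩
  · intro n hn
    simp only [Finset.mem_erase, Finset.mem_image, Finset.mem_univ, true_and] at hn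
    obtain ⟨h0, i, rfl⟩ := hn
    have := hne1 i
    omega
  · calc ((Finset.univ.image g).erase 0).card ≤ (Finset.univ.image g).card :=
          Finset.card_erase_le
      _ ≤ (Finset.univ : Finset (Fin T)).card := Finset.card_image_le
      _ = T := by simp
  · rw [← hsum]
    have h1 : (Finset.univ.image g).erase 0 =
        (Finset.univ.filter (fun i => g i ≠ 0)).image g := by
      ext n
      simp only [Finset.mem_erase, Finset.mem_image, Finset.mem_univ, true_and,
        Finset.mem_filter]
      constructor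
      · rintro ⟨h0, i, rfl⟩
        exact ⟨i, h0, rfl⟩
      · rintro ⟨i, h0, rfl⟩
        exact ⟨h0, i, rfl⟩
    rw [h1, Finset.sum_image]
    · rw [Finset.sum_filter]
      refine Finset.sum_congr rfl fun i _ => ?_
      by_cases h0 : g i = 0
      · simp [h0]
      · simp [h0]
    · intro i hi j hj hgij
      simp only [Finset.coe_filter, Finset.mem_univ, true_and, Set.mem_ofPred_eq] at hi hj
      by_contra hne
      rcases lt_or_gt_of_ne hne with h | h
      · exact hi (key i j h hgij)
      · exact hj (key j i h hgij.symm)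

end Crest.Agent.Egypt
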