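import Mathlib
import Crest.Agent.Egypt.Rep

set_option autoImplicit false

/-!
# Greedy part, divisors at all scales, digit expansion
-/

namespace Crest.Agent.Egypt

/-- Divisors at all scales. -/
theorem scale (W : ℕ) (L : List ℕ) (hL : ∀ c ∈ L, 1 ≤ c ∧ c ≤ 2 ^ W) :
    ∀ z, 1 ≤ z → z ≤ L.prod * 2 ^ W → ∃ d, d ∣ L.prod * 2 ^ W ∧ d ≤ z ∧ z < 2 * d := by
  induction L with
  | nil =>
    intro z hz1 hz2
    simp only [List.prod_nil, one_mul] at hz2 ⊢
    refine ⟨2 ^ Nat.log 2 z, ?_, Nat.pow_log_le_self 2 (by omega), ?_⟩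
    · refine pow_dvd_pow 2 ?_
      calc Nat.log 2 z ≤ Nat.log 2 (2 ^ W) := Nat.log_mono_right hz2
        _ = W := Nat.log_pow (by norm_num) W
    · have := Nat.lt_pow_succ_log_self (b := 2) (by norm_num) z
      rw [pow_succ] at this
      omega
  | cons c L ih =>
    intro z hz1 hz2
    have hc := hL c (by simp)
    have ih' := ih (fun x hx => hL x (by simp [hx]))
    rw [List.prod_cons] at hz2 ⊢
    rcases le_or_gt z (L.prod * 2 ^ W) with h | h
    · obtain ⟨d, hd, h1, h2⟩ := ih' z hz1 h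
      refine ⟨d, ?_, h1, h2⟩
      rw [mul_assoc]
      exact dvd_mul_of_dvd_right hd c
    · have hLpos : 1 ≤ L.prod := by
        refine Nat.one_le_iff_ne_zero.mpr ?_
        intro h0
        rw [List.prod_eq_zero_iff] at h0
        have := hL 0 (by simp [h0])
        omega
      have hcz : c ≤ z := by
        calc c ≤ 2 ^ W := hc.2
          _ ≤ L.prod * 2 ^ W := Nat.le_mul_of_pos_left _ hLpos
          _ ≤ z := h.le
      have hz' : z / c ≤ L.prod * 2 ^ W := by
        refine Nat.div_le_of_le_mul ?_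
        rw [← mul_assoc]
        exact hz2
      obtain ⟨d, hd, h1, h2⟩ := ih' (z / c) (Nat.div_pos hcz hc.1) hz'
      refine ⟨c * d, ?_, ?_, ?_⟩
      · rw [mul_assoc]
        exact Nat.mul_dvd_mul_left c hd
      · calc c * d ≤ c * (z / c) := Nat.mul_le_mul_left c h1
          _ ≤ z := Nat.mul_div_le z c
      · have h3 : z < c * (z / c + 1) := by
          rw [mul_add, mul_one]
          have := Nat.lt_div_mul_add (a := z) (b := c) (by omega)
          rw [mul_comm] at this
          exact this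
        calc z < c * (z / c + 1) := h3
          _ ≤ c * (2 * d) := Nat.mul_le_mul_left c (by omega)
          _ = 2 * (c * d) := by ring

/-- One greedy step. -/
theorem greedy (a b W : ℕ) (ha : 1 ≤ a) (hab : a < b) (hb : b ≤ 2 ^ W) (i : ℕ) :
    ∃ (L : List ℕ) (A : ℕ), (∀ c ∈ L, 1 ≤ c ∧ c ≤ 2 ^ W) ∧ A ≤ a ∧
      Rep ((a : ℚ) / b - (A : ℚ) / (L.prod : ℕ)) (i + 1) ∧
      (A = 0 ∨ 2 ^ W ≤ L.prod ∨ (A : ℚ) / (L.prod : ℕ) < 1 / 2 ^ (2 ^ i)) := by
  -- the step
  have step : ∀ (L : List ℕ) (A : ℕ), (∀ c ∈ L, 1 ≤ c ∧ c ≤ 2 ^ W) → 1 ≤ A → A < L.prod →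
      L.prod < 2 ^ W →
      ∃ (c : ℕ) (A' : ℕ), 1 ≤ c ∧ c ≤ 2 ^ W ∧ A' ≤ A ∧
        (A' : ℚ) / ((c * L.prod : ℕ) : ℚ) = (A : ℚ) / (L.prod : ℕ) - 1 / c ∧
        (A' : ℚ) / ((c * L.prod : ℕ) : ℚ) <
          ((A : ℚ) / (L.prod : ℕ)) ^ 2 / (1 + (A : ℚ) / (L.prod : ℕ)) := by
    intro L A hL hA hAB hBW
    set B := L.prod with hB
    have hB0 : 0 < B := by omega
    -- c = ceil (B / A)
    set c := (B + A - 1) / A with hc
    have hc1 : B ≤ A * c := by
      have : B + A - 1 < A * (c + 1) := by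
        have := Nat.lt_div_mul_add (a := B + A - 1) (b := A) (by omega)
        rw [← hc] at this
        linarith [mul_comm c A]
      rw [mul_add, mul_one] at this
      omega
    have hc2 : A * c < B + A := by
      have : (B + A - 1) / A * A ≤ B + A - 1 := Nat.div_mul_le_self _ _
      rw [← hc, mul_comm] at this
      omega
    have hcpos : 0 < c := by
      rcases Nat.eq_zero_or_pos c with h | h
      · rw [h] at hc1; omega
      · exact h
    have hcB : c ≤ B := by
      by_contra hcon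
      push Not at hcon
      -- c ≥ B+1, A * c ≥ A * (B + 1) ≥ B + A
      have : A * (B + 1) ≤ A * c := Nat.mul_le_mul_left A hcon
      have h2 : A * (B + 1) = A * B + A := by ring
      have h3 : B ≤ A * B := Nat.le_mul_of_pos_left B hA
      omega
    refine ⟨c, A * c - B, hcpos, by omega, by omega, ?_, ?_⟩
    · have hBq : (B : ℚ) ≠ 0 := by exact_mod_cast hB0.ne'
      have hcq : (c : ℚ) ≠ 0 := by exact_mod_cast hcpos.ne'
      rw [Nat.cast_sub hc1]
      push_cast
      field_simp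
    · have hBq : (0 : ℚ) < B := by exact_mod_cast hB0
      have hcq : (0 : ℚ) < c := by exact_mod_cast hcpos
      have hAq : (0 : ℚ) < A := by exact_mod_cast hA
      rw [Nat.cast_sub hc1]
      push_cast
      have h2 : (A : ℚ) * c < B + A := by exact_mod_cast hc2
      have h1 : (B : ℚ) ≤ A * c := by exact_mod_cast hc1
      -- (A c - B)/(c B) < A^2 / (B (B + A))
      have e1 : ((A : ℚ) / B) ^ 2 / (1 + (A : ℚ) / B) = A ^ 2 / (B * (B + A)) := by
        field_simp
      rw [e1, div_lt_div_iff₀ (by positivity) (by positivity)]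
      -- (A c - B) * (B (B+A)) < A^2 * (c B)
      have h3 : (A : ℚ) * c * B < (B + A) * B := by
        exact mul_lt_mul_of_pos_right h2 hBq
      nlinarith [mul_pos hBq hBq, mul_lt_mul_of_pos_right h2 (mul_pos hBq hBq)]
  induction i with
  | zero =>
    obtain ⟨c, A', hc1, hc2, hA', h1, h2⟩ | hbW :
        (∃ (c : ℕ) (A' : ℕ), 1 ≤ c ∧ c ≤ 2 ^ W ∧ A' ≤ a ∧
        (A' : ℚ) / ((c * b : ℕ) : ℚ) = (a : ℚ) / (b : ℕ) - 1 / c ∧
        (A' : ℚ) / ((c * b : ℕ) : ℚ) <
          ((a : ℚ) / (b : ℕ)) ^ 2 / (1 + (a : ℚ) / (b : ℕ))) ∨ b = 2 ^ W := by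
      rcases Nat.lt_or_ge b (2 ^ W) with h | h
      · left
        have := step [b] a (by simp; omega) ha (by simpa using hab) (by simpa using h)
        simpa using this
      · right; omega
    · refine ⟨[c, b], A', ?_, hA', ?_, ?_⟩
      · intro x hx
        simp only [List.mem_cons, List.not_mem_nil, or_false] at hx
        rcases hx with rfl | rfl
        · exact ⟨hc1, hc2⟩
        · exact ⟨by omega, hb⟩
      · have : (a : ℚ) / b - (A' : ℚ) / (([c, b].prod : ℕ) : ℚ) = 1 / c := by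
          have e : [c, b].prod = c * b := by simp
          rw [e, h1]
          ring
        rw [this]
        exact rep_unit c
      · right; right
        have e : [c, b].prod = c * b := by simp
        rw [e]
        refine lt_trans h2 ?_
        have hbq : (0 : ℚ) < b := by exact_mod_cast (by omega : 0 < b)
        have haq : (0 : ℚ) < a := by exact_mod_cast ha
        have hx1 : (a : ℚ) / b < 1 := by
          rw [div_lt_one hbq]
          exact_mod_cast hab
        have hx0 : 0 < (a : ℚ) / b := by positivity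
        set x := (a : ℚ) / b with hx
        rw [div_lt_div_iff₀ (by positivity) (by positivity)]
        norm_num
        nlinarith
    · refine ⟨[b], a, ?_, le_rfl, ?_, ?_⟩
      · intro x hx
        simp only [List.mem_cons, List.not_mem_nil, or_false] at hx
        subst hx
        exact ⟨by omega, hb⟩
      · simp only [List.prod_cons, List.prod_nil, mul_one, sub_self]
        exact rep_zero _
      · right; left
        simp [hbW]
  | succ i ih =>
    obtain ⟨L, A, hL, hA, hR, hcase⟩ := ih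
    by_cases h0 : A = 0
    · exact ⟨L, A, hL, hA, rep_mono hR (by omega), Or.inl h0⟩
    by_cases hW : 2 ^ W ≤ L.prod
    · exact ⟨L, A, hL, hA, rep_mono hR (by omega), Or.inr (Or.inl hW)⟩
    push Not at hW
    have hlt : (A : ℚ) / (L.prod : ℕ) < 1 / 2 ^ (2 ^ i) := by
      rcases hcase with h | h | h
      · exact absurd h h0
      · omega
      · exact h
    have hLpos : 0 < L.prod := by
      refine Nat.pos_of_ne_zero ?_
      intro h0
      rw [List.prod_eq_zero_iff] at h0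
      have := hL 0 h0
      omega
    have hBq : (0 : ℚ) < (L.prod : ℕ) := by exact_mod_cast hLpos
    have hAq : (0 : ℚ) < A := by exact_mod_cast Nat.pos_of_ne_zero h0
    have hAB : A < L.prod := by
      have h1 : (A : ℚ) / (L.prod : ℕ) < 1 := by
        refine lt_of_lt_of_le hlt ?_
        rw [div_le_one (by positivity)]
        exact one_le_pow₀ (by norm_num)
      rw [div_lt_one hBq] at h1
      exact_mod_cast h1
    obtain ⟨c, A', hc1, hc2, hA', h1, h2⟩ := step L A hL (by omega) hAB hW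
    refine ⟨c :: L, A', ?_, hA'.trans hA, ?_, ?_⟩
    · intro x hx
      rw [List.mem_cons] at hx
      rcases hx with rfl | hx
      · exact ⟨hc1, hc2⟩
      · exact hL x hx
    · rw [List.prod_cons, h1]
      have : (a : ℚ) / b - ((A : ℚ) / (L.prod : ℕ) - 1 / c) =
          ((a : ℚ) / b - (A : ℚ) / (L.prod : ℕ)) + 1 / c := by ring
      rw [this]
      exact rep_add hR (rep_unit c)
    · right; right
      rw [List.prod_cons]
      refine lt_trans h2 ?_
      set x := (A : ℚ) / (L.prod : ℕ) with hx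
      have hx0 : 0 < x := by positivity
      calc x ^ 2 / (1 + x) < x ^ 2 := by
            rw [div_lt_iff₀ (by positivity)]
            nlinarith [pow_pos hx0 2, pow_pos hx0 3]
        _ < (1 / 2 ^ (2 ^ i)) ^ 2 := by
            exact pow_lt_pow_left₀ hlt hx0.le (by norm_num)
        _ = 1 / 2 ^ (2 ^ (i + 1)) := by
            rw [div_pow, one_pow, ← pow_mul, ← pow_succ]

/-- the final greedy statement -/
theorem greedy' (a b W i : ℕ) (ha : 1 ≤ a) (hab : a < b) (hb : b ≤ 2 ^ W) (hi : W ≤ 2 ^ i) :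
    ∃ (L : List ℕ) (A : ℕ), (∀ c ∈ L, 1 ≤ c ∧ c ≤ 2 ^ W) ∧ A ≤ a ∧
      Rep ((a : ℚ) / b - (A : ℚ) / (L.prod : ℕ)) (i + 1) ∧
      (A = 0 ∨ 2 ^ W ≤ L.prod) := by
  obtain ⟨L, A, hL, hA, hR, h⟩ := greedy a b W ha hab hb i
  refine ⟨L, A, hL, hA, hR, ?_⟩
  rcases h with h | h | h
  · exact Or.inl h
  · exact Or.inr h
  · by_cases h0 : A = 0
    · exact Or.inl h0
    right
    have hLpos : 0 < L.prod := by
      refine Nat.pos_of_ne_zero ?_
      intro h0
      rw [List.prod_eq_zero_iff] at h0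
      have := hL 0 h0
      omega
    have hBq : (0 : ℚ) < (L.prod : ℕ) := by exact_mod_cast hLpos
    rw [div_lt_div_iff₀ hBq (by positivity), one_mul] at h
    have hA1 : (1 : ℚ) ≤ A := by exact_mod_cast Nat.one_le_iff_ne_zero.mpr h0
    have h3 : (2 : ℚ) ^ (2 ^ i) < ((L.prod : ℕ) : ℚ) := by
      refine lt_of_le_of_lt ?_ h
      exact le_mul_of_one_le_left (by positivity) hA1
    have h4 : 2 ^ (2 ^ i) < L.prod := by exact_mod_cast h3
    calc 2 ^ W ≤ 2 ^ (2 ^ i) := Nat.pow_le_pow_right (by norm_num) hi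
      _ ≤ L.prod := h4.le

/-- among `t` consecutive integers one is not divisible by any of fewer than `t` primes `≥ t`. -/
theorem exists_coprime (Q : Finset ℕ) (t q : ℕ) (hQ : Q.card < t) (hQt : ∀ p ∈ Q, t ≤ p)
    (hq : t ≤ q) : ∃ y, q < y + t ∧ y ≤ q ∧ ∀ p ∈ Q, ¬ p ∣ y := by
  by_contra hcon
  push Not at hcon
  -- y = q - j for j < t
  have h : ∀ j ∈ Finset.range t, ∃ p ∈ Q, p ∣ q - j := by
    intro j hj
    rw [Finset.mem_range] at hj
    exact hcon (q - j) (by omega) (by omega)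
  choose! f hf1 hf2 using h
  obtain ⟨i, hi, j, hj, hij, hfij⟩ := Finset.exists_ne_map_eq_of_card_lt_of_maps_to
    (s := Finset.range t) (t := Q) (f := f) (by simpa using hQ) (fun x hx => hf1 x hx)
  have key : ∀ i j, i ∈ Finset.range t → j ∈ Finset.range t → i < j → f i = f j → False := by
    intro i j hi hj hij hfij
    have h1 := hf2 i hi
    have h2 := hf2 j hj
    rw [← hfij] at h2
    have h3 := Nat.dvd_sub h1 h2
    have h4 : q - i - (q - j) = j - i := by
      rw [Finset.mem_range] at hi hj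
      omega
    rw [h4] at h3
    have h5 := Nat.le_of_dvd (by omega) h3
    have h6 := hQt (f i) (hf1 i hi)
    rw [Finset.mem_range] at hi hj
    omega
  rcases lt_or_gt_of_ne hij with h | h
  · exact key i j hi hj h hfij
  · exact key j i hj hi h hfij.symm

/-- the `y`-trick: one digit. -/
theorem digit_term (S M d y s : ℕ) (hS : 0 < S) (hM : 0 < M) (hd : d ∣ M) (hy : 1 ≤ y)
    (hs : 0 < s)
    (δ : Fin s → ℕ) (hδ : ∀ i, δ i ∣ S) (hX : y ∣ ∑ i, δ i) :
    Rep ((y * d : ℕ) / ((M * S : ℕ) : ℚ)) s := by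
  obtain ⟨e, he⟩ := hX
  obtain ⟨m, rfl⟩ := hd
  choose u hu using hδ
  have hδpos : ∀ i, 0 < δ i := fun i => Nat.pos_of_ne_zero (by
    intro h0
    have := hu i
    rw [h0, zero_mul] at this
    omega)
  have hd0 : d ≠ 0 := by rintro rfl; simp at hM
  have hm0 : m ≠ 0 := by rintro rfl; simp at hM
  have hsumpos : 0 < ∑ i, δ i := by
    have : Nonempty (Fin s) := ⟨⟨0, hs⟩⟩
    exact Finset.sum_pos (fun i _ => hδpos i) Finset.univ_nonempty
  have he0 : e ≠ 0 := by
    rintro rfl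
    rw [mul_zero] at he
    omega
  have hy0 : y ≠ 0 := by omega
  have hu0 : ∀ i, u i ≠ 0 := by
    intro i h0
    have := hu i
    rw [h0, mul_zero] at this
    omega
  refine ⟨fun i => e * m * u i, ?_⟩
  have h1 : ∀ i, (1 : ℚ) / ((e * m * u i : ℕ) : ℚ) = (δ i : ℚ) * (1 / (e * m * S)) := by
    intro i
    have a1 : (e : ℚ) ≠ 0 := by exact_mod_cast he0
    have a2 : (m : ℚ) ≠ 0 := by exact_mod_cast hm0
    have a3 : (u i : ℚ) ≠ 0 := by exact_mod_cast hu0 i
    have a4 : (δ i : ℚ) ≠ 0 := by exact_mod_cast (hδpos i).ne'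
    have a5 : (S : ℚ) = δ i * u i := by exact_mod_cast hu i
    rw [a5]
    push_cast
    field_simp
  rw [Finset.sum_congr rfl (fun i _ => h1 i), ← Finset.sum_mul]
  have h2 : ∑ i, (δ i : ℚ) = y * e := by exact_mod_cast he
  rw [h2]
  have a1 : (e : ℚ) ≠ 0 := by exact_mod_cast he0
  have a2 : (m : ℚ) ≠ 0 := by exact_mod_cast hm0
  have a3 : (d : ℚ) ≠ 0 := by exact_mod_cast hd0
  have a4 : (S : ℚ) ≠ 0 := by exact_mod_cast hS.ne'
  push_cast
  field_simp

/-- Digit expansion. -/
theorem digits (S M s ℓ r u : ℕ) (Q : Finset ℕ) (Z : ℕ)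
    (hS : 0 < S) (hM : 0 < M) (hs : 0 < s)
    (hr : r + u + 1 = ℓ) (hQc : Q.card < 2 ^ u) (hQ : ∀ p ∈ Q, 2 ^ u ≤ p)
    (hKL : ∀ y, 1 ≤ y → y ≤ 2 ^ ℓ → (∀ p ∈ Q, ¬ p ∣ y) →
      ∃ δ : Fin s → ℕ, (∀ i, δ i ∣ S) ∧ y ∣ ∑ i, δ i)
    (hscale : ∀ z, 1 ≤ z → z ≤ Z → ∃ d, d ∣ M ∧ d ≤ z ∧ z < 2 * d) :
    ∀ j n : ℕ, n < 2 ^ (r * j + ℓ) → n ≤ Z → Rep ((n : ℚ) / ((M * S : ℕ) : ℚ)) (s * (j + 2)) := by
  have small : ∀ n : ℕ, n < 2 ^ u → Rep ((n : ℚ) / ((M * S : ℕ) : ℚ)) s := by
    intro n hn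
    rcases Nat.eq_zero_or_pos n with rfl | hn0
    · simpa using rep_zero s
    · obtain ⟨δ, h1, h2⟩ := hKL n hn0 (le_trans hn.le (Nat.pow_le_pow_right (by norm_num)
        (by omega))) (fun p hp hdiv => by
          have := Nat.le_of_dvd hn0 hdiv
          have := hQ p hp
          omega)
      have := digit_term S M 1 n s hS hM (one_dvd _) hn0 hs δ h1 h2
      simpa using this
  -- one digit with a divisor `d`
  have one : ∀ n d : ℕ, d ∣ M → 2 ^ u * d ≤ n → n < 2 ^ ℓ * d →
      ∃ n', n' < 2 ^ u * d ∧ n' ≤ n ∧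
        ∀ T, Rep ((n' : ℚ) / ((M * S : ℕ) : ℚ)) T → Rep ((n : ℚ) / ((M * S : ℕ) : ℚ)) (T + s) := by
    intro n d hd h1 h2
    have hd0 : 0 < d := Nat.pos_of_dvd_of_pos hd hM
    have hq1 : 2 ^ u ≤ n / d := (Nat.le_div_iff_mul_le hd0).mpr h1
    have hq2 : n / d < 2 ^ ℓ := (Nat.div_lt_iff_lt_mul hd0).mpr h2
    obtain ⟨y, hy1, hy2, hy3⟩ := exists_coprime Q (2 ^ u) (n / d) hQc hQ hq1
    have hy0 : 1 ≤ y := by
      rcases Nat.eq_zero_or_pos y with rfl | h
      · -- y = 0: then q < 2^u, contradiction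
        omega
      · exact h
    obtain ⟨δ, h3, h4⟩ := hKL y hy0 (by omega) hy3
    have hT := digit_term S M d y s hS hM hd hy0 hs δ h3 h4
    have hyd : y * d ≤ n := by
      calc y * d ≤ n / d * d := Nat.mul_le_mul_right d hy2
        _ ≤ n := Nat.div_mul_le_self n d
    refine ⟨n - y * d, ?_, Nat.sub_le _ _, ?_⟩
    · have h5 : n < (n / d + 1) * d := by
        rw [add_mul, one_mul]
        exact Nat.lt_div_mul_add hd0
      have h6 : (n / d + 1) * d ≤ (y + 2 ^ u) * d := Nat.mul_le_mul_right d (by omega)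
      have h7 : (y + 2 ^ u) * d = y * d + 2 ^ u * d := add_mul _ _ _
      omega
    · intro T hT'
      have : (n : ℚ) / ((M * S : ℕ) : ℚ) =
          ((n - y * d : ℕ) : ℚ) / ((M * S : ℕ) : ℚ) + (y * d : ℕ) / ((M * S : ℕ) : ℚ) := by
        rw [← add_div, Nat.cast_sub hyd]
        ring
      rw [this]
      exact rep_add hT' hT
  intro j
  induction j with
  | zero =>
    intro n hn hnZ
    rw [mul_zero, zero_add] at hn
    rcases Nat.lt_or_ge n (2 ^ u) with h | h
    · exact rep_mono (small n h) (by omega)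
    · obtain ⟨n', h1, h2, h3⟩ := one n 1 (one_dvd _) (by omega) (by omega)
      rw [mul_one] at h1
      refine rep_mono (h3 _ (small n' h1)) (by omega)
  | succ j ih =>
    intro n hn hnZ
    rcases Nat.lt_or_ge n (2 ^ ℓ) with hnl | hnl
    · exact rep_mono (ih n (lt_of_lt_of_le hnl (Nat.pow_le_pow_right (by norm_num) (by omega)))
        hnZ) (Nat.mul_le_mul_left s (by omega))
    · -- z = n / 2^(ℓ-1)
      set z := n / 2 ^ (r + u) with hz
      have hp : 0 < 2 ^ (r + u) := by positivity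
      have hzpos : 1 ≤ z := by
        refine Nat.div_pos ?_ hp
        exact le_trans (Nat.pow_le_pow_right (by norm_num) (by omega)) hnl
      obtain ⟨d, hd, hd1, hd2⟩ := hscale z hzpos (le_trans (Nat.div_le_self _ _) hnZ)
      have hzn : z * 2 ^ (r + u) ≤ n := Nat.div_mul_le_self _ _
      have hzn' : n < (z + 1) * 2 ^ (r + u) := by
        rw [add_mul, one_mul]
        exact Nat.lt_div_mul_add hp
      have hℓ : 2 ^ ℓ = 2 * 2 ^ (r + u) := by
        rw [← hr, pow_succ]
        ring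
      have hc1 : 2 ^ u * d ≤ n := by
        calc 2 ^ u * d ≤ 2 ^ (r + u) * z := Nat.mul_le_mul
              (Nat.pow_le_pow_right (by norm_num) (by omega)) hd1
          _ = z * 2 ^ (r + u) := by ring
          _ ≤ n := hzn
      have hc2 : n < 2 ^ ℓ * d := by
        calc n < (z + 1) * 2 ^ (r + u) := hzn'
          _ ≤ (2 * d) * 2 ^ (r + u) := Nat.mul_le_mul_right _ (by omega)
          _ = 2 ^ ℓ * d := by rw [hℓ]; ring
      obtain ⟨n', h1, h2, h3⟩ := one n d hd hc1 hc2
      have hn' : n' < 2 ^ (r * j + ℓ) := by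
        -- n' < 2^u d ≤ 2^u z ≤ 2^u n / 2^(r+u) = n / 2^r
        have e1 : n' * 2 ^ r < 2 ^ (r * j + ℓ) * 2 ^ r := by
          calc n' * 2 ^ r < 2 ^ u * d * 2 ^ r := Nat.mul_lt_mul_of_pos_right h1 (by positivity)
            _ ≤ 2 ^ u * z * 2 ^ r := by gcongr
            _ = z * 2 ^ (r + u) := by rw [pow_add]; ring
            _ ≤ n := hzn
            _ ≤ 2 ^ (r * (j + 1) + ℓ) := hn.le
            _ = 2 ^ (r * j + ℓ) * 2 ^ r := by rw [← pow_add]; congr 1; ring
        exact Nat.lt_of_mul_lt_mul_right e1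
      refine rep_mono (h3 _ (ih n' hn' (h2.trans hnZ))) ?_
      have : s * (j + 1 + 2) = s * (j + 2) + s := by ring
      omega

end Crest.Agent.Egypt
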