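import Mathlib
import Crest.Agent.Egypt.Digits

set_option autoImplicit false

/-!
# Assembly: the main theorem from the key lemma
-/

namespace Crest.Agent.Egypt

/-- The key lemma: there is a reservoir `S` of bit length `O(κ 2^κ)`, such that every `y ≤ 2^(2^κ)` not
divisible by the few exceptional `q ∈ Q` divides a sum of `s` divisors of `S`. -/
def KL (C₁ s c : ℕ) : Prop := ∃ κ₀ : ℕ, ∀ κ ≥ κ₀, ∃ (S : ℕ) (Q : Finset ℕ),
  0 < S ∧ S ≤ 2 ^ (C₁ * κ * 2 ^ κ) ∧ Q.card < 2 ^ (κ + c) ∧ (∀ q ∈ Q, 2 ^ (κ + c) ≤ q) ∧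
  ∀ y, 1 ≤ y → y ≤ 2 ^ (2 ^ κ) → (∀ q ∈ Q, ¬ q ∣ y) →
    ∃ δ : Fin s → ℕ, (∀ i, δ i ∣ S) ∧ y ∣ ∑ i, δ i

theorem rep_of_KL {C₁ s c : ℕ} (hs : 0 < s) (h : KL C₁ s c) :
    ∃ κ₁ C₂ : ℕ, ∀ κ ≥ κ₁, ∀ a b : ℕ, 1 ≤ a → a < b → b ≤ 2 ^ (κ * 2 ^ κ) →
      Rep ((a : ℚ) / b) (C₂ * κ) := by
  obtain ⟨κ₀, h⟩ := h
  refine ⟨κ₀ + c + 10, 2 + C₁ + 2 + 4 * s * (C₁ + 1) + 2 * s, ?_⟩
  intro κ hκ a b ha hab hb
  obtain ⟨S, Q, hS, hS2, hQc, hQ, hKL⟩ := h κ (by omega)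
  set W := (C₁ + 1) * κ * 2 ^ κ with hW
  set i := 2 * κ + C₁ + 1 with hi
  have hκ1 : 1 ≤ κ := by omega
  have hWi : W ≤ 2 ^ i := by
    have h1 : C₁ + 1 ≤ 2 ^ (C₁ + 1) := (Nat.lt_two_pow_self).le
    have h2 : κ ≤ 2 ^ κ := (Nat.lt_two_pow_self).le
    calc W = (C₁ + 1) * κ * 2 ^ κ := rfl
      _ ≤ 2 ^ (C₁ + 1) * 2 ^ κ * 2 ^ κ := by gcongr
      _ = 2 ^ i := by rw [← pow_add, ← pow_add]; congr 1; omega
  have hbW : b ≤ 2 ^ W := by
    refine hb.trans (Nat.pow_le_pow_right (by norm_num) ?_)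
    rw [hW]
    calc κ * 2 ^ κ = 1 * κ * 2 ^ κ := by ring
      _ ≤ (C₁ + 1) * κ * 2 ^ κ := by gcongr; omega
  obtain ⟨L, A, hL, hA, hR, hcase⟩ := greedy' a b W i ha hab hbW hWi
  have hfin : Rep ((A : ℚ) / (L.prod : ℕ)) (s * (4 * (C₁ + 1) * κ + 2)) := by
    rcases hcase with h0 | hBW
    · rw [h0]
      simpa using rep_zero _
    have hLpos : 0 < L.prod := lt_of_lt_of_le (by positivity) hBW
    set M := L.prod * 2 ^ W with hM
    have hMpos : 0 < M := by positivity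
    set u := κ + c with hu
    set ℓ := 2 ^ κ with hℓ
    have hbig : κ + c + 1 ≤ 2 ^ (κ - 1) := by
      have h1 : ∀ n : ℕ, 10 ≤ n → 2 * n + 2 ≤ 2 ^ (n - 1) := by
        intro n hn
        induction n, hn using Nat.le_induction with
        | base => norm_num
        | succ n hn ih =>
          have : 2 ^ (n + 1 - 1) = 2 * 2 ^ (n - 1) := by
            rw [← pow_succ']
            congr 1
            omega
          omega
      have := h1 κ (by omega)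
      omega
    have hℓ2 : ℓ = 2 * 2 ^ (κ - 1) := by
      rw [hℓ, ← pow_succ']
      congr 1
      omega
    set r := ℓ - u - 1 with hr
    have hr1 : r + u + 1 = ℓ := by omega
    have hr2 : 2 ^ (κ - 1) ≤ r := by omega
    have hdig := digits S M s ℓ r u Q M hS hMpos hs hr1 hQc hQ hKL
      (fun z hz1 hz2 => scale W L hL z hz1 hz2) (4 * (C₁ + 1) * κ) (A * 2 ^ W * S)
    have hAS : A * S < 2 ^ W := by
      have h1 : A < 2 ^ (κ * ℓ) := by omega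
      calc A * S < 2 ^ (κ * ℓ) * 2 ^ (C₁ * κ * ℓ) := by
            exact Nat.mul_lt_mul_of_lt_of_le h1 hS2 (by positivity)
        _ = 2 ^ W := by rw [← pow_add, hW]; congr 1; ring
    have hn1 : A * 2 ^ W * S < 2 ^ (r * (4 * (C₁ + 1) * κ) + ℓ) := by
      have e1 : A * 2 ^ W * S < 2 ^ (2 * W) := by
        calc A * 2 ^ W * S = A * S * 2 ^ W := by ring
          _ < 2 ^ W * 2 ^ W := Nat.mul_lt_mul_of_pos_right hAS (by positivity)
          _ = 2 ^ (2 * W) := by rw [← pow_add]; congr 1; ring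
      refine lt_of_lt_of_le e1 (Nat.pow_le_pow_right (by norm_num) ?_)
      calc 2 * W = 2 ^ (κ - 1) * (4 * (C₁ + 1) * κ) := by
            rw [hW, hℓ2]; ring
        _ ≤ r * (4 * (C₁ + 1) * κ) := Nat.mul_le_mul_right _ hr2
        _ ≤ _ := Nat.le_add_right _ _
    have hn2 : A * 2 ^ W * S ≤ M := by
      calc A * 2 ^ W * S = A * S * 2 ^ W := by ring
        _ ≤ L.prod * 2 ^ W := Nat.mul_le_mul_right _ (by omega)
        _ = M := rfl
    have := hdig hn1 hn2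
    have e : ((A * 2 ^ W * S : ℕ) : ℚ) / ((M * S : ℕ) : ℚ) = (A : ℚ) / (L.prod : ℕ) := by
      have a1 : (S : ℚ) ≠ 0 := by exact_mod_cast hS.ne'
      have a2 : ((L.prod : ℕ) : ℚ) ≠ 0 := by exact_mod_cast hLpos.ne'
      have a3 : ((2 : ℚ) ^ W) ≠ 0 := by positivity
      rw [hM]
      push_cast at a2 ⊢
      field_simp
    rw [e] at this
    exact this
  have htot := rep_add hR hfin
  have e : (a : ℚ) / b - (A : ℚ) / (L.prod : ℕ) + (A : ℚ) / (L.prod : ℕ) = (a : ℚ) / b := by ring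
  rw [e] at htot
  refine rep_mono htot ?_
  have e1 : (2 + C₁ + 2 + 4 * s * (C₁ + 1) + 2 * s) * κ =
      2 * κ + (C₁ + 2) * κ + 4 * s * (C₁ + 1) * κ + 2 * s * κ := by ring
  have e2 : s * (4 * (C₁ + 1) * κ + 2) = 4 * s * (C₁ + 1) * κ + 2 * s := by ring
  have e3 : C₁ + 2 ≤ (C₁ + 2) * κ := Nat.le_mul_of_pos_right _ hκ1
  have e4 : 2 * s ≤ 2 * s * κ := Nat.le_mul_of_pos_right _ hκ1
  omega

theorem main_of_KL {C₁ s c : ℕ} (hs : 0 < s) (h : KL C₁ s c) :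
    ∃ C : ℝ, ∃ b₀ : ℕ, ∀ (a b : ℕ), b₀ ≤ b → 1 ≤ a → a < b →
      ∃ S : Finset ℕ, (∀ n ∈ S, 2 ≤ n) ∧ (S.card : ℝ) ≤ C * Real.log (Real.log (b : ℝ)) ∧
        ∑ n ∈ S, (1 : ℚ) / (n : ℚ) = (a : ℚ) / (b : ℚ) := by
  obtain ⟨κ₁, C₂, hmain⟩ := rep_of_KL hs h
  refine ⟨C₂ * 6, 2 ^ ((κ₁ + 3) * 2 ^ (κ₁ + 3)) + 1, ?_⟩
  intro a b hb ha hab
  -- the least κ with b ≤ 2^(κ 2^κ)
  have hex : ∃ κ, b ≤ 2 ^ (κ * 2 ^ κ) := by
    refine ⟨b, (Nat.lt_two_pow_self).le.trans (Nat.pow_le_pow_right (by norm_num) ?_)⟩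
    exact Nat.le_mul_of_pos_right _ (by positivity)
  classical
  set κ := Nat.find hex with hκ
  have hκs : b ≤ 2 ^ (κ * 2 ^ κ) := Nat.find_spec hex
  have hκm : ∀ m, m < κ → 2 ^ (m * 2 ^ m) < b := fun m hm => by
    have := Nat.find_min hex hm
    omega
  have hκ1 : κ₁ + 3 < κ := by
    by_contra hcon
    push Not at hcon
    have : 2 ^ (κ * 2 ^ κ) ≤ 2 ^ ((κ₁ + 3) * 2 ^ (κ₁ + 3)) := by
      refine Nat.pow_le_pow_right (by norm_num) ?_
      exact Nat.mul_le_mul hcon (Nat.pow_le_pow_right (by norm_num) hcon)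
    omega
  have hrep := hmain κ (by omega) a b ha hab hκs
  have hb0 : (0 : ℚ) < b := by exact_mod_cast (by omega : 0 < b)
  have hr1 : (a : ℚ) / b < 1 := by
    rw [div_lt_one hb0]
    exact_mod_cast hab
  obtain ⟨T, hT1, hT2, hT3⟩ := rep_distinct hr1 hrep
  refine ⟨T, hT1, ?_, hT3⟩
  have hblow : 2 ^ (2 ^ (κ - 1)) < b := by
    refine lt_of_le_of_lt (Nat.pow_le_pow_right (by norm_num) ?_) (hκm (κ - 1) (by omega))
    exact Nat.le_mul_of_pos_left _ (by omega)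
  have hlog2 : (1 : ℝ) / 2 < Real.log 2 := by
    have := Real.log_two_gt_d9
    linarith
  have h1 : (2 : ℝ) ^ (κ - 2) ≤ Real.log b := by
    have e1 : (2 : ℝ) ^ (2 ^ (κ - 1)) ≤ (b : ℝ) := by exact_mod_cast hblow.le
    have e2 := Real.log_le_log (by positivity) e1
    rw [Real.log_pow] at e2
    refine le_trans ?_ e2
    have e3 : (2 : ℝ) ^ (κ - 1) = 2 * 2 ^ (κ - 2) := by
      rw [← pow_succ']
      congr 1
      omega
    push_cast
    rw [e3]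
    nlinarith [pow_pos (by norm_num : (0 : ℝ) < 2) (κ - 2)]
  have h2 : ((κ - 2 : ℕ) : ℝ) * (1 / 2) ≤ Real.log (Real.log b) := by
    have e2 := Real.log_le_log (by positivity) h1
    rw [Real.log_pow] at e2
    refine le_trans ?_ e2
    exact mul_le_mul_of_nonneg_left hlog2.le (by positivity)
  have h3 : (κ : ℝ) ≤ 3 * ((κ - 2 : ℕ) : ℝ) := by
    have : κ ≤ 3 * (κ - 2) := by omega
    exact_mod_cast this
  calc (T.card : ℝ) ≤ ((C₂ * κ : ℕ) : ℝ) := by exact_mod_cast hT2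
    _ = (C₂ : ℝ) * κ := by push_cast; ring
    _ ≤ (C₂ : ℝ) * (6 * Real.log (Real.log b)) := by
        refine mul_le_mul_of_nonneg_left ?_ (by positivity)
        linarith
    _ = C₂ * 6 * Real.log (Real.log b) := by ring

end Crest.Agent.Egypt
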