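import Mathlib

set_option autoImplicit false

/-!
# Fourier part: bilinear bound, geometric sums, zero sums modulo `y`
-/

namespace Crest.Agent.Egypt

open Finset

/-- number of collisions modulo `N` -/
def coll {α : Type*} [Fintype α] (N : ℕ) (U : α → ℕ) : ℕ :=
  (univ.filter (fun p : α × α => U p.1 ≡ U p.2 [MOD N])).card

theorem pow_mod_eq {ζ : ℂ} {N : ℕ} (hζ : ζ ^ N = 1) (n : ℕ) : ζ ^ (n % N) = ζ ^ n := by
  conv_rhs => rw [← Nat.div_add_mod n N, pow_add, pow_mul, hζ, one_pow, one_mul]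

theorem pow_eq_of_modEq {ζ : ℂ} {N : ℕ} (hζ : ζ ^ N = 1) {m n : ℕ} (h : m ≡ n [MOD N]) :
    ζ ^ m = ζ ^ n := by
  rw [← pow_mod_eq hζ m, ← pow_mod_eq hζ n, h]

theorem modEq_of_pow_eq {ζ : ℂ} {N : ℕ} (hN : 0 < N) (hζ : IsPrimitiveRoot ζ N) {m n : ℕ}
    (h : ζ ^ m = ζ ^ n) : m ≡ n [MOD N] := by
  rw [← pow_mod_eq hζ.pow_eq_one m, ← pow_mod_eq hζ.pow_eq_one n] at h
  exact hζ.pow_inj (Nat.mod_lt _ hN) (Nat.mod_lt _ hN) h

theorem norm_root {ζ : ℂ} {N : ℕ} (hN : 0 < N) (hζ : ζ ^ N = 1) : ‖ζ‖ = 1 :=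
  Complex.norm_eq_one_of_pow_eq_one hζ hN.ne'

/-- full geometric sums vanish -/
theorem geom_full {η : ℂ} {N : ℕ} (hη : η ^ N = 1) (h1 : η ≠ 1) :
    ∑ x ∈ range N, η ^ x = 0 := by
  have := mul_neg_geom_sum η N
  rw [hη, sub_self] at this
  rcases mul_eq_zero.mp this with h | h
  · exact absurd (sub_eq_zero.mp h).symm h1
  · exact h

/-- second moment of the exponential sums -/
theorem second_moment {N : ℕ} (hN : 0 < N) {ζ : ℂ} (hζ : IsPrimitiveRoot ζ N)
    {β : Type*} [Fintype β] (V : β → ℕ) :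
    ∑ x ∈ range N, ‖∑ j, ζ ^ (x * V j)‖ ^ 2 = (N : ℝ) * coll N V := by
  classical
  have hnorm := norm_root hN hζ.pow_eq_one
  have hζ0 : ζ ≠ 0 := by
    intro h0
    rw [h0, norm_zero] at hnorm
    exact zero_ne_one hnorm
  have hC : ((∑ x ∈ range N, ‖∑ j, ζ ^ (x * V j)‖ ^ 2 : ℝ) : ℂ) = ((N : ℝ) * coll N V : ℝ) := by
    push_cast
    have h1 : ∀ x : ℕ, ((‖∑ j, ζ ^ (x * V j)‖ : ℂ)) ^ 2 =
        ∑ j, ∑ j', (ζ ^ (V j) * (starRingEnd ℂ) (ζ ^ (V j'))) ^ x := by
      intro x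
      rw [← Complex.mul_conj', map_sum, Finset.sum_mul_sum]
      refine sum_congr rfl fun j _ => sum_congr rfl fun j' _ => ?_
      rw [mul_pow, ← map_pow, ← pow_mul, ← pow_mul, mul_comm (V j) x, mul_comm (V j') x]
    rw [sum_congr rfl (fun x _ => h1 x), Finset.sum_comm]
    have h2 : ∀ j : β, ∑ x ∈ range N, ∑ j', (ζ ^ (V j) * (starRingEnd ℂ) (ζ ^ (V j'))) ^ x =
        ∑ j', if V j ≡ V j' [MOD N] then (N : ℂ) else 0 := by
      intro j
      rw [Finset.sum_comm]
      refine sum_congr rfl fun j' _ => ?_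
      have hconj : (starRingEnd ℂ) (ζ ^ (V j')) * ζ ^ (V j') = 1 := by
        rw [mul_comm, Complex.mul_conj', norm_pow, hnorm]
        simp
      split_ifs with h
      · have : ζ ^ (V j) * (starRingEnd ℂ) (ζ ^ (V j')) = 1 := by
          rw [pow_eq_of_modEq hζ.pow_eq_one h, mul_comm, hconj]
        rw [this]
        simp
      · refine geom_full ?_ ?_
        · rw [mul_pow, ← map_pow, ← pow_mul, ← pow_mul, mul_comm (V j) N, mul_comm (V j') N,
            pow_mul, pow_mul, hζ.pow_eq_one]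
          simp
        · intro h3
          apply h
          refine modEq_of_pow_eq hN hζ ?_
          calc ζ ^ (V j) = ζ ^ (V j) * ((starRingEnd ℂ) (ζ ^ (V j')) * ζ ^ (V j')) := by
                rw [hconj, mul_one]
            _ = (ζ ^ (V j) * (starRingEnd ℂ) (ζ ^ (V j'))) * ζ ^ (V j') := by ring
            _ = ζ ^ (V j') := by rw [h3, one_mul]
    rw [sum_congr rfl (fun j _ => h2 j)]
    unfold coll
    rw [← Finset.sum_product', Finset.univ_product_univ, ← Finset.sum_filter, Finset.sum_const,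
      nsmul_eq_mul, mul_comm]
  exact_mod_cast hC

/-- bilinear bound -/
theorem bilinear {N : ℕ} (hN : 0 < N) {ζ : ℂ} (hζ : IsPrimitiveRoot ζ N)
    {α β : Type*} [Fintype α] [Fintype β] (U : α → ℕ) (V : β → ℕ) :
    ‖∑ i, ∑ j, ζ ^ (U i * V j)‖ ^ 2 ≤ (N : ℝ) * coll N U * coll N V := by
  classical
  set c : ℕ → ℕ := fun x => (univ.filter (fun i : α => U i % N = x)).card with hc
  set F : ℕ → ℂ := fun x => ∑ j, ζ ^ (x * V j) with hF
  have h1 : ∑ i, ∑ j, ζ ^ (U i * V j) = ∑ x ∈ range N, (c x : ℂ) * F x := by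
    have e1 : ∀ i, ∑ j, ζ ^ (U i * V j) = F (U i % N) := by
      intro i
      refine sum_congr rfl fun j _ => ?_
      refine pow_eq_of_modEq hζ.pow_eq_one ?_
      exact Nat.ModEq.mul_right _ (Nat.mod_modEq _ _).symm
    rw [sum_congr rfl (fun i _ => e1 i)]
    rw [← Finset.sum_fiberwise_of_maps_to (s := univ) (t := range N) (g := fun i => U i % N)
      (fun i _ => Finset.mem_range.mpr (Nat.mod_lt _ hN))]
    refine sum_congr rfl fun x _ => ?_
    rw [Finset.sum_congr rfl (g := fun _ => F x)]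
    · rw [Finset.sum_const, nsmul_eq_mul]
    · intro i hi
      rw [Finset.mem_filter] at hi
      rw [hi.2]
  have h2 : ∑ x ∈ range N, (c x : ℝ) ^ 2 = coll N U := by
    unfold coll
    have e : (univ.filter (fun p : α × α => U p.1 ≡ U p.2 [MOD N])) =
        (range N).biUnion (fun x => (univ.filter (fun i : α => U i % N = x)) ×ˢ
          (univ.filter (fun i : α => U i % N = x))) := by
      ext ⟨i, j⟩
      simp only [Finset.mem_filter, Finset.mem_univ, true_and, Finset.mem_biUnion,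
        Finset.mem_range, Finset.mem_product]
      constructor
      · intro h
        exact ⟨U i % N, Nat.mod_lt _ hN, rfl, h.symm⟩
      · rintro ⟨x, _, h1, h2⟩
        exact h1.trans h2.symm
    rw [e, Finset.card_biUnion]
    · push_cast
      refine sum_congr rfl fun x _ => ?_
      rw [Finset.card_product]
      push_cast
      ring
    · intro x _ x' _ hxx'
      rw [Function.onFun, Finset.disjoint_left]
      rintro ⟨i, j⟩ h1 h2
      simp only [Finset.mem_product, Finset.mem_filter, Finset.mem_univ, true_and] at h1 h2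
      exact hxx' (h1.1.symm.trans h2.1)
  rw [h1]
  calc ‖∑ x ∈ range N, (c x : ℂ) * F x‖ ^ 2
      ≤ (∑ x ∈ range N, (c x : ℝ) * ‖F x‖) ^ 2 := by
        refine pow_le_pow_left₀ (norm_nonneg _) ?_ 2
        refine (norm_sum_le _ _).trans (le_of_eq (sum_congr rfl fun x _ => ?_))
        rw [norm_mul, Complex.norm_natCast]
    _ ≤ (∑ x ∈ range N, (c x : ℝ) ^ 2) * (∑ x ∈ range N, ‖F x‖ ^ 2) :=
        Finset.sum_mul_sq_le_sq_mul_sq _ _ _
    _ = (N : ℝ) * coll N U * coll N V := by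
        rw [h2, second_moment hN hζ]
        ring

/-- incomplete geometric sums are bounded by the modulus -/
theorem tiny {N : ℕ} (hN : 2 ≤ N) {ζ : ℂ} (hζ : IsPrimitiveRoot ζ N) (M : ℕ) :
    ‖∑ t ∈ range M, ζ ^ (t + 1)‖ ≤ N := by
  have hnorm := norm_root (by omega) hζ.pow_eq_one
  have h1 : ζ ≠ 1 := hζ.ne_one (by omega)
  have hG : ∑ x ∈ range M, ζ ^ x = ∑ x ∈ range (M % N), ζ ^ x := by
    have e1 := mul_neg_geom_sum ζ M
    have e2 := mul_neg_geom_sum ζ (M % N)
    rw [pow_mod_eq hζ.pow_eq_one] at e2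
    rw [← e2] at e1
    exact mul_left_cancel₀ (sub_ne_zero.mpr h1.symm) e1
  have e : ∑ t ∈ range M, ζ ^ (t + 1) = ζ * ∑ t ∈ range M, ζ ^ t := by
    rw [Finset.mul_sum]
    exact sum_congr rfl fun t _ => by rw [pow_succ, mul_comm]
  rw [e, norm_mul, hnorm, one_mul, hG]
  calc ‖∑ x ∈ range (M % N), ζ ^ x‖ ≤ ∑ x ∈ range (M % N), ‖ζ ^ x‖ := norm_sum_le _ _
    _ = ((M % N : ℕ) : ℝ) := by
        simp [norm_pow, hnorm]
    _ ≤ N := by exact_mod_cast (Nat.mod_lt _ (by omega)).le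

theorem sum_inv_cube (y : ℕ) : ∑ d ∈ Finset.Icc 2 y, (1 : ℝ) / (d : ℝ) ^ 3 < 1 := by
  have h : ∀ y : ℕ, ∑ d ∈ Finset.Icc 2 (y + 1), (1 : ℝ) / (d : ℝ) ^ 3 ≤ 1 - 1 / (y + 1) := by
    intro y
    induction y with
    | zero => simp
    | succ y ih =>
      rw [Finset.sum_Icc_succ_top (by omega)]
      have h1 : (1 : ℝ) / ((y + 1 + 1 : ℕ) : ℝ) ^ 3 ≤ 1 / (y + 1) - 1 / (y + 1 + 1) := by
        push_cast
        have hy : (0 : ℝ) ≤ y := by positivity
        rw [div_sub_div _ _ (by positivity) (by positivity), div_le_div_iff₀ (by positivity)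
          (by positivity)]
        nlinarith [mul_nonneg hy hy, mul_nonneg (mul_nonneg hy hy) hy]
      push_cast at h1 ⊢
      linarith
  rcases Nat.eq_zero_or_pos y with rfl | hy
  · simp
  · obtain ⟨z, rfl⟩ : ∃ z, y = z + 1 := ⟨y - 1, by omega⟩
    refine lt_of_le_of_lt (h z) ?_
    have : (0 : ℝ) < 1 / (z + 1) := by positivity
    linarith

/-- zero sums modulo `y` -/
theorem zero_sum (y : ℕ) (hy : 0 < y) {Λ J : Type} [Fintype Λ] [Nonempty Λ] [Fintype J]
    (x : J → Λ → ℕ)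
    (H : ∀ (η : ℂ) (d : ℕ), IsPrimitiveRoot η d → d ∣ y → 2 ≤ d →
      ∏ j, ‖∑ w, η ^ (x j w)‖ ≤ (Fintype.card Λ : ℝ) ^ (Fintype.card J) / (d : ℝ) ^ 4) :
    ∃ w : J → Λ, y ∣ ∑ j, x j (w j) := by
  classical
  by_contra hcon
  push Not at hcon
  set ζ : ℂ := Complex.exp (2 * Real.pi * Complex.I / y) with hζdef
  have hζ : IsPrimitiveRoot ζ y := Complex.isPrimitiveRoot_exp y hy.ne'
  -- total sum vanishes
  have h0 : ∑ k ∈ range y, ∏ j, ∑ w, (ζ ^ k) ^ (x j w) = 0 := by
    have e1 : ∀ k : ℕ, ∏ j, ∑ w, (ζ ^ k) ^ (x j w) =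
        ∑ w : J → Λ, (ζ ^ (∑ j, x j (w j))) ^ k := by
      intro k
      rw [Finset.prod_univ_sum, Fintype.piFinset_univ]
      refine sum_congr rfl fun w _ => ?_
      rw [Finset.prod_pow_eq_pow_sum, ← pow_mul, ← pow_mul, mul_comm]
    rw [sum_congr rfl (fun k _ => e1 k), Finset.sum_comm]
    refine Finset.sum_eq_zero fun w _ => ?_
    refine geom_full ?_ ?_
    · rw [← pow_mul, mul_comm, pow_mul, hζ.pow_eq_one, one_pow]
    · intro h
      exact hcon w ((hζ.pow_eq_one_iff_dvd _).mp h)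
  -- separate k = 0
  obtain ⟨z, rfl⟩ : ∃ z, y = z + 1 := ⟨y - 1, by omega⟩
  rw [Finset.sum_range_succ'] at h0
  have h00 : ∏ j : J, ∑ w : Λ, (ζ ^ 0) ^ (x j w) =
      ((Fintype.card Λ : ℝ) ^ (Fintype.card J) : ℝ) := by
    simp
  rw [h00] at h0
  set P : ℝ := (Fintype.card Λ : ℝ) ^ (Fintype.card J) with hP
  have hPpos : 0 < P := by
    have : 0 < Fintype.card Λ := Fintype.card_pos
    positivity
  have h1 : P ≤ ∑ k ∈ range z, ‖∏ j, ∑ w, (ζ ^ (k + 1)) ^ (x j w)‖ := by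
    have e : (P : ℂ) = - ∑ k ∈ range z, ∏ j, ∑ w, (ζ ^ (k + 1)) ^ (x j w) := by
      linear_combination h0
    have e2 : ‖(P : ℂ)‖ = P := by
      rw [Complex.norm_real, Real.norm_eq_abs, abs_of_pos hPpos]
    rw [← e2, e, norm_neg]
    exact norm_sum_le _ _
  have h2 : ∀ k ∈ range z, ‖∏ j, ∑ w, (ζ ^ (k + 1)) ^ (x j w)‖ ≤
      P * (1 / (orderOf (ζ ^ (k + 1)) : ℝ) ^ 4) := by
    intro k hk
    rw [Finset.mem_range] at hk
    rw [norm_prod]
    have hd : orderOf (ζ ^ (k + 1)) ∣ z + 1 := by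
      apply orderOf_dvd_of_pow_eq_one
      rw [← pow_mul, mul_comm, pow_mul, hζ.pow_eq_one, one_pow]
    have hd2 : 2 ≤ orderOf (ζ ^ (k + 1)) := by
      have hpos : 0 < orderOf (ζ ^ (k + 1)) := Nat.pos_of_dvd_of_pos hd (by omega)
      by_contra hlt
      have h1 : orderOf (ζ ^ (k + 1)) = 1 := by omega
      rw [orderOf_eq_one_iff] at h1
      have := (hζ.pow_eq_one_iff_dvd _).mp h1
      have := Nat.le_of_dvd (by omega) this
      omega
    have := H (ζ ^ (k + 1)) _ (IsPrimitiveRoot.orderOf _) hd hd2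
    rw [mul_one_div]
    exact this
  have h3 : ∑ k ∈ range z, (1 : ℝ) / (orderOf (ζ ^ (k + 1)) : ℝ) ^ 4 ≤
      ∑ d ∈ Finset.Icc 2 (z + 1), (1 : ℝ) / (d : ℝ) ^ 3 := by
    rw [← Finset.sum_fiberwise_of_maps_to (s := range z) (t := Finset.Icc 2 (z + 1))
      (g := fun k => orderOf (ζ ^ (k + 1)))]
    · refine Finset.sum_le_sum fun d hd => ?_
      rw [Finset.mem_Icc] at hd
      rw [Finset.sum_congr rfl (g := fun _ => (1 : ℝ) / (d : ℝ) ^ 4)]
      · rw [Finset.sum_const, nsmul_eq_mul]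
        have hcard : ((range z).filter (fun k => orderOf (ζ ^ (k + 1)) = d)).card ≤ d := by
          have hinj : Set.InjOn (fun k => ζ ^ (k + 1))
              ((range z).filter (fun k => orderOf (ζ ^ (k + 1)) = d)) := by
            intro k hk k' hk' hkk'
            simp only [Finset.coe_filter, Finset.mem_range, Set.mem_ofPred_eq] at hk hk'
            have := hζ.pow_inj (by omega) (by omega) hkk'
            omega
          rw [← Finset.card_image_of_injOn hinj]
          calc (image (fun k => ζ ^ (k + 1))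
                ((range z).filter (fun k => orderOf (ζ ^ (k + 1)) = d))).card
              ≤ (Polynomial.nthRoots d (1 : ℂ)).toFinset.card := by
                refine Finset.card_le_card ?_
                intro η hη
                simp only [Finset.mem_image, Finset.mem_filter] at hη
                obtain ⟨k, ⟨_, hk⟩, rfl⟩ := hη
                rw [Multiset.mem_toFinset, Polynomial.mem_nthRoots (by omega)]
                rw [← hk]
                exact pow_orderOf_eq_one _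
            _ ≤ Multiset.card (Polynomial.nthRoots d (1 : ℂ)) := Multiset.toFinset_card_le _
            _ ≤ d := Polynomial.card_nthRoots d 1
        have hd0 : (0 : ℝ) < d := by exact_mod_cast (by omega : 0 < d)
        calc (((range z).filter (fun k => orderOf (ζ ^ (k + 1)) = d)).card : ℝ) * (1 / (d : ℝ) ^ 4)
            ≤ (d : ℝ) * (1 / (d : ℝ) ^ 4) := by
              refine mul_le_mul_of_nonneg_right (by exact_mod_cast hcard) (by positivity)
          _ = 1 / (d : ℝ) ^ 3 := by field_simp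
      · intro k hk
        rw [Finset.mem_filter] at hk
        rw [hk.2]
    · intro k hk
      rw [Finset.mem_range] at hk
      have hd : orderOf (ζ ^ (k + 1)) ∣ z + 1 := by
        apply orderOf_dvd_of_pow_eq_one
        rw [← pow_mul, mul_comm, pow_mul, hζ.pow_eq_one, one_pow]
      have hpos : 0 < orderOf (ζ ^ (k + 1)) := Nat.pos_of_dvd_of_pos hd (by omega)
      rw [Finset.mem_Icc]
      refine ⟨?_, Nat.le_of_dvd (by omega) hd⟩
      by_contra hlt
      have h1 : orderOf (ζ ^ (k + 1)) = 1 := by omega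
      rw [orderOf_eq_one_iff] at h1
      have := (hζ.pow_eq_one_iff_dvd _).mp h1
      have := Nat.le_of_dvd (by omega) this
      omega
  have h4 : P ≤ P * ∑ d ∈ Finset.Icc 2 (z + 1), (1 : ℝ) / (d : ℝ) ^ 3 := by
    calc P ≤ ∑ k ∈ range z, ‖∏ j, ∑ w, (ζ ^ (k + 1)) ^ (x j w)‖ := h1
      _ ≤ ∑ k ∈ range z, P * (1 / (orderOf (ζ ^ (k + 1)) : ℝ) ^ 4) := Finset.sum_le_sum h2
      _ = P * ∑ k ∈ range z, (1 / (orderOf (ζ ^ (k + 1)) : ℝ) ^ 4) := by rw [Finset.mul_sum]
      _ ≤ P * ∑ d ∈ Finset.Icc 2 (z + 1), (1 : ℝ) / (d : ℝ) ^ 3 :=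
          mul_le_mul_of_nonneg_left h3 hPpos.le
  have h5 := sum_inv_cube (z + 1)
  nlinarith

end Crest.Agent.Egypt
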