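import Mathlib
import Crest.Agent.Egypt.Fourier

set_option autoImplicit false

/-!
# From good blocks to divisors sums divisible by `y`
-/

namespace Crest.Agent.Egypt

open Finset

/-- a block is good modulo `d` if its collision probability is at most `d^(-3/4)` -/
def Good {α : Type*} [Fintype α] (d : ℕ) (U : α → ℕ) : Prop :=
  (coll d U : ℝ) ^ 4 * (d : ℝ) ^ 3 ≤ (Fintype.card α : ℝ) ^ 8

theorem divides_sum (m : ℕ) {α : Type} [Fintype α] [Nonempty α] (U : Fin m → α → ℕ)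
    (S M Z y : ℕ) (hm : 0 < m) (hy : 0 < y) (hM : Z ^ 2 ≤ M) (hM1 : 1 ≤ M)
    (hS1 : ∀ b b', b < b' → ∀ i j, U b i * U b' j ∣ S) (hS2 : ∀ t < M, t + 1 ∣ S)
    (hgood : ∀ d, d ∣ y → Z < d → ∃ b b', b < b' ∧ Good d (U b) ∧ Good d (U b')) :
    ∃ δ : Fin (16 * (m * m)) → ℕ, (∀ i, δ i ∣ S) ∧ y ∣ ∑ i, δ i := by
  classical
  set x : Fin 16 × (Fin m × Fin m) → Fin M × (α × α) → ℕ := fun j w =>
    if j.2.1 < j.2.2 then U j.2.1 w.2.1 * U j.2.2 w.2.2 else (w.1 : ℕ) + 1 with hx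
  have hM' : Nonempty (Fin M) := ⟨⟨0, hM1⟩⟩
  have hdiv : ∀ j w, x j w ∣ S := by
    intro j w
    simp only [hx]
    split_ifs with h
    · exact hS1 _ _ h _ _
    · exact hS2 _ w.1.2
  have hmain : ∃ w : Fin 16 × (Fin m × Fin m) → Fin M × (α × α), y ∣ ∑ j, x j (w j) := by
    refine zero_sum y hy x ?_
    intro η d hη hd hd2
    have hdpos : 0 < d := by omega
    have hnorm := norm_root hdpos hη.pow_eq_one
    set Lc : ℝ := (Fintype.card (Fin M × (α × α)) : ℝ) with hLc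
    have hLc' : Lc = M * ((Fintype.card α : ℝ) * (Fintype.card α : ℝ)) := by
      simp [hLc]
    have hLpos : 0 < Lc := by
      rw [hLc]
      exact_mod_cast Fintype.card_pos
    -- the norm sums depend only on the pair
    set A : Fin m × Fin m → ℝ := fun p => ‖∑ w : Fin M × (α × α), η ^ (x (0, p) w)‖ with hA
    have hAle : ∀ p, A p ≤ Lc := by
      intro p
      calc A p ≤ ∑ w : Fin M × (α × α), ‖η ^ (x (0, p) w)‖ := norm_sum_le _ _
        _ = Lc := by simp [norm_pow, hnorm, hLc]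
    have hA0 : ∀ p, 0 ≤ A p := fun p => norm_nonneg _
    -- it suffices to have one good pair
    suffices hp : ∃ p, A p ^ 16 ≤ Lc ^ 16 / (d : ℝ) ^ 4 by
      obtain ⟨p, hp⟩ := hp
      have e1 : ∏ j : Fin 16 × (Fin m × Fin m), ‖∑ w, η ^ (x j w)‖ =
          ∏ p : Fin m × Fin m, A p ^ 16 := by
        rw [Fintype.prod_prod_type, Finset.prod_comm]
        refine Finset.prod_congr rfl fun p _ => ?_
        have : ∀ i : Fin 16, ‖∑ w, η ^ (x (i, p) w)‖ = A p := fun i => rfl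
        rw [Finset.prod_congr rfl (fun i _ => this i)]
        simp
      rw [e1, ← Finset.mul_prod_erase _ _ (Finset.mem_univ p)]
      have e2 : ∏ q ∈ (univ : Finset (Fin m × Fin m)).erase p, A q ^ 16 ≤
          ∏ q ∈ (univ : Finset (Fin m × Fin m)).erase p, Lc ^ 16 := by
        refine Finset.prod_le_prod (fun q _ => by positivity) (fun q _ => ?_)
        exact pow_le_pow_left₀ (hA0 q) (hAle q) 16
      rw [Finset.prod_const, Finset.card_erase_of_mem (Finset.mem_univ p), Finset.card_univ] at e2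
      have e3 : (Fintype.card (Fin 16 × (Fin m × Fin m))) =
          16 + 16 * (Fintype.card (Fin m × Fin m) - 1) := by
        have : 0 < Fintype.card (Fin m × Fin m) := Fintype.card_pos_iff.mpr ⟨p⟩
        rw [Fintype.card_prod, Fintype.card_fin]
        omega
      rw [e3, pow_add, pow_mul]
      calc A p ^ 16 * ∏ q ∈ (univ : Finset (Fin m × Fin m)).erase p, A q ^ 16
          ≤ (Lc ^ 16 / (d : ℝ) ^ 4) * (Lc ^ 16) ^ (Fintype.card (Fin m × Fin m) - 1) := by
            refine mul_le_mul hp e2 ?_ (by positivity)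
            exact Finset.prod_nonneg fun q _ => by positivity
        _ = _ := by ring
    have hdR : (0 : ℝ) < d := by exact_mod_cast hdpos
    have hd1R : (1 : ℝ) ≤ d := by exact_mod_cast hdpos
    rcases Nat.lt_or_ge Z d with hZd | hZd
    · obtain ⟨b, b', hbb', hb, hb'⟩ := hgood d hd hZd
      refine ⟨(b, b'), ?_⟩
      have e1 : A (b, b') = M * ‖∑ i, ∑ j, η ^ (U b i * U b' j)‖ := by
        simp only [hA]
        have : ∀ w : Fin M × (α × α), η ^ (x (0, (b, b')) w) = η ^ (U b w.2.1 * U b' w.2.2) := by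
          intro w
          simp [hx, hbb']
        rw [Finset.sum_congr rfl (fun w _ => this w), Fintype.sum_prod_type]
        simp only [Finset.sum_const, Finset.card_univ, Fintype.card_fin, nsmul_eq_mul, norm_mul,
          Complex.norm_natCast]
        rw [Fintype.sum_prod_type]
      set B := ‖∑ i, ∑ j, η ^ (U b i * U b' j)‖ with hB
      have hB0 : 0 ≤ B := norm_nonneg _
      have hbil := bilinear hdpos hη (U b) (U b')
      rw [← hB] at hbil
      set c := (coll d (U b) : ℝ) with hc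
      set c' := (coll d (U b') : ℝ) with hc'
      have hc0 : 0 ≤ c := by positivity
      have hc0' : 0 ≤ c' := by positivity
      set n := (Fintype.card α : ℝ) with hn
      have hn0 : 0 ≤ n := by positivity
      unfold Good at hb hb'
      rw [← hc, ← hn] at hb
      rw [← hc', ← hn] at hb'
      have h1 : (B ^ 2) ^ 8 ≤ ((d : ℝ) * c * c') ^ 8 := pow_le_pow_left₀ (by positivity) hbil 8
      have h2 : (c ^ 4 * (d : ℝ) ^ 3) ^ 2 ≤ (n ^ 8) ^ 2 := pow_le_pow_left₀ (by positivity) hb 2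
      have h3 : (c' ^ 4 * (d : ℝ) ^ 3) ^ 2 ≤ (n ^ 8) ^ 2 := pow_le_pow_left₀ (by positivity) hb' 2
      have h4 : (c ^ 4 * (d : ℝ) ^ 3) ^ 2 * (c' ^ 4 * (d : ℝ) ^ 3) ^ 2 ≤ (n ^ 8) ^ 2 * (n ^ 8) ^ 2 :=
        mul_le_mul h2 h3 (by positivity) (by positivity)
      rw [e1, hLc', le_div_iff₀ (by positivity)]
      have h5 : B ^ 16 * (d : ℝ) ^ 4 ≤ (n * n) ^ 16 := by
        calc B ^ 16 * (d : ℝ) ^ 4 = (B ^ 2) ^ 8 * (d : ℝ) ^ 4 := by ring
          _ ≤ ((d : ℝ) * c * c') ^ 8 * (d : ℝ) ^ 4 := by gcongr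
          _ = (c ^ 4 * (d : ℝ) ^ 3) ^ 2 * (c' ^ 4 * (d : ℝ) ^ 3) ^ 2 := by ring
          _ ≤ (n ^ 8) ^ 2 * (n ^ 8) ^ 2 := h4
          _ = (n * n) ^ 16 := by ring
      calc ((M : ℝ) * B) ^ 16 * (d : ℝ) ^ 4 = (M : ℝ) ^ 16 * (B ^ 16 * (d : ℝ) ^ 4) := by ring
        _ ≤ (M : ℝ) ^ 16 * (n * n) ^ 16 := by gcongr
        _ = (M * (n * n)) ^ 16 := by ring
    · refine ⟨(⟨0, hm⟩, ⟨0, hm⟩), ?_⟩
      have e1 : A (⟨0, hm⟩, ⟨0, hm⟩) = ‖∑ t ∈ range M, η ^ (t + 1)‖ *
          ((Fintype.card α : ℝ) * (Fintype.card α : ℝ)) := by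
        simp only [hA]
        have : ∀ w : Fin M × (α × α), η ^ (x (0, ((⟨0, hm⟩ : Fin m), (⟨0, hm⟩ : Fin m))) w) =
            η ^ ((w.1 : ℕ) + 1) := by
          intro w
          simp [hx]
        rw [Finset.sum_congr rfl (fun w _ => this w), Fintype.sum_prod_type]
        simp only [Finset.sum_const, Finset.card_univ, Fintype.card_prod, nsmul_eq_mul]
        rw [← Finset.mul_sum, norm_mul, Complex.norm_natCast, Finset.sum_range]
        push_cast
        ring
      have h1 := tiny hd2 hη M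
      have h2 : (d : ℝ) * d ≤ M := by
        have : d * d ≤ M := by nlinarith
        exact_mod_cast this
      set n := (Fintype.card α : ℝ) with hn
      have h3 : A (⟨0, hm⟩, ⟨0, hm⟩) * d ≤ Lc := by
        rw [e1, hLc']
        calc ‖∑ t ∈ range M, η ^ (t + 1)‖ * (n * n) * d
            ≤ (d : ℝ) * (n * n) * d := by gcongr
          _ = ((d : ℝ) * d) * (n * n) := by ring
          _ ≤ M * (n * n) := by gcongr
      rw [le_div_iff₀ (by positivity)]
      calc A (⟨0, hm⟩, ⟨0, hm⟩) ^ 16 * (d : ℝ) ^ 4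
          ≤ A (⟨0, hm⟩, ⟨0, hm⟩) ^ 16 * (d : ℝ) ^ 16 := by
            refine mul_le_mul_of_nonneg_left ?_ (by have := hA0 (⟨0, hm⟩, ⟨0, hm⟩); positivity)
            exact pow_le_pow_right₀ hd1R (by norm_num)
        _ = (A (⟨0, hm⟩, ⟨0, hm⟩) * d) ^ 16 := by ring
        _ ≤ Lc ^ 16 := pow_le_pow_left₀ (by have := hA0 (⟨0, hm⟩, ⟨0, hm⟩); positivity) h3 16
  obtain ⟨w, hw⟩ := hmain
  have hcard : Fintype.card (Fin 16 × (Fin m × Fin m)) = 16 * (m * m) := by simp
  let e := (Fintype.equivFinOfCardEq hcard).symm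
  refine ⟨fun i => x (e i) (w (e i)), fun i => hdiv _ _, ?_⟩
  rw [Equiv.sum_comp e (fun j => x j (w j))]
  exact hw

end Crest.Agent.Egypt
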