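import Mathlib
import Crest.Agent.Egypt.Blocks

set_option autoImplicit false

/-!
# Counting collisions over random prime atoms
-/

namespace Crest.Agent.Egypt

open Finset
open scoped Nat

theorem card_prod_eq {P : Finset ℕ} (hP : ∀ p ∈ P, p.Prime) {ι : Type} [Fintype ι]
    [DecidableEq ι] (n : ℕ) :
    (univ.filter (fun x : ι → P => ∏ i, (x i : ℕ) = n)).card ≤ (Fintype.card ι)! := by
  classical
  set s := univ.filter (fun x : ι → P => ∏ i, (x i : ℕ) = n) with hs
  rcases s.eq_empty_or_nonempty with h | ⟨x0, hx0⟩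
  · rw [h]; simp
  · let e := Fintype.equivFin ι
    let f : (ι → P) → List ℕ := fun x => List.ofFn (fun i => (x (e.symm i) : ℕ))
    have hfinj : Function.Injective f := by
      intro x x' h
      have h1 := List.ofFn_injective h
      funext i
      have h2 := congrFun h1 (e i)
      simp only [Equiv.symm_apply_apply] at h2
      exact Subtype.ext h2
    have hperm : ∀ x ∈ s, (f x).Perm n.primeFactorsList := by
      intro x hx
      rw [hs, Finset.mem_filter] at hx
      refine Nat.primeFactorsList_unique ?_ ?_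
      · simp only [f]
        rw [List.prod_ofFn, Equiv.prod_comp e.symm (fun i => (x i : ℕ))]
        exact hx.2
      · intro p hp
        simp only [f] at hp
        rw [List.mem_ofFn] at hp
        obtain ⟨i, rfl⟩ := hp
        exact hP _ (x (e.symm i)).2
    calc s.card = (s.image f).card := (Finset.card_image_of_injective s hfinj).symm
      _ ≤ (n.primeFactorsList.permutations.toFinset).card := by
          refine Finset.card_le_card ?_
          intro l hl
          rw [Finset.mem_image] at hl
          obtain ⟨x, hx, rfl⟩ := hl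
          rw [List.mem_toFinset, List.mem_permutations]
          exact hperm x hx
      _ ≤ n.primeFactorsList.permutations.length := List.toFinset_card_le _
      _ = (n.primeFactorsList.length)! := List.length_permutations _
      _ = (Fintype.card ι)! := by
          rw [← (hperm x0 hx0).length_eq]
          simp [f]

theorem card_modEq {P : Finset ℕ} (hP : ∀ p ∈ P, p.Prime) {Y : ℕ} (hPY : ∀ p ∈ P, p ≤ Y)
    {ι : Type} [Fintype ι] [DecidableEq ι] (y c c' : ℕ) (hc : Nat.Coprime c y) :
    (univ.filter (fun x : ι → P => c * ∏ i, (x i : ℕ) ≡ c' [MOD y])).card ≤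
      (Fintype.card ι)! * (Y ^ (Fintype.card ι) / y + 1) := by
  classical
  set s := univ.filter (fun x : ι → P => c * ∏ i, (x i : ℕ) ≡ c' [MOD y]) with hs
  refine (Finset.card_le_mul_card_image (f := fun x : ι → P => ∏ i, (x i : ℕ)) s
    (Fintype.card ι)! ?_).trans ?_
  · intro n _
    refine (Finset.card_le_card ?_).trans (card_prod_eq (ι := ι) hP n)
    intro x hx
    rw [Finset.mem_filter] at hx ⊢
    exact ⟨Finset.mem_univ _, hx.2⟩
  · refine Nat.mul_le_mul_left _ ?_
    set T := s.image (fun x : ι → P => ∏ i, (x i : ℕ)) with hT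
    have hTm : ∀ n ∈ T, n ≤ Y ^ (Fintype.card ι) ∧ c * n ≡ c' [MOD y] := by
      intro n hn
      rw [hT, Finset.mem_image] at hn
      obtain ⟨x, hx, rfl⟩ := hn
      rw [hs, Finset.mem_filter] at hx
      refine ⟨?_, hx.2⟩
      calc ∏ i, (x i : ℕ) ≤ ∏ _i : ι, Y := Finset.prod_le_prod' (fun i _ => hPY _ (x i).2)
        _ = Y ^ (Fintype.card ι) := by simp
    have hinj : Set.InjOn (fun n => n / y) T := by
      intro n hn n' hn' h
      have h1 := (hTm n hn).2
      have h2 := (hTm n' hn').2
      have h3 : n ≡ n' [MOD y] := by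
        have := h1.trans h2.symm
        exact Nat.ModEq.cancel_left_of_coprime (by rwa [Nat.coprime_comm] at hc) this
      have h4 : n / y = n' / y := h
      rw [← Nat.div_add_mod n y, ← Nat.div_add_mod n' y, h4, h3]
    rw [← Finset.card_image_of_injOn hinj]
    calc (image (fun n => n / y) T).card ≤ (range (Y ^ (Fintype.card ι) / y + 1)).card := by
          refine Finset.card_le_card ?_
          intro n hn
          rw [Finset.mem_image] at hn
          obtain ⟨n, hn, rfl⟩ := hn
          rw [Finset.mem_range]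
          have := Nat.div_le_div_right (c := y) (hTm n hn).1
          omega
      _ = _ := Finset.card_range _

/-- the products of the block `ω` -/
def U {P : Finset ℕ} {g : ℕ} (ω : Fin g × Bool → P) : (Fin g → Bool) → ℕ :=
  fun ε => ∏ i, (ω (i, ε i) : ℕ)

theorem card_pair {P : Finset ℕ} (hP : ∀ p ∈ P, p.Prime) {Y : ℕ} (hPY : ∀ p ∈ P, p ≤ Y)
    {g : ℕ} (y : ℕ) (ε ε' : Fin g → Bool) (k : ℕ)
    (hk : k ≤ (univ.filter (fun i => ε i ≠ ε' i)).card) :
    (univ.filter (fun ω : Fin g × Bool → P => (∀ j, Nat.Coprime (ω j) y) ∧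
      U ω ε ≡ U ω ε' [MOD y])).card ≤ (k ! * (Y ^ k / y + 1)) * P.card ^ (2 * g - k) := by
  classical
  obtain ⟨J, hJ, hJk⟩ := Finset.exists_subset_card_eq hk
  set s := univ.filter (fun ω : Fin g × Bool → P => (∀ j, Nat.Coprime (ω j) y) ∧
      U ω ε ≡ U ω ε' [MOD y]) with hs
  let q : Fin g × Bool → Prop := fun j => j.1 ∈ J ∧ j.2 = ε j.1
  let f : (Fin g × Bool → P) → ({j : Fin g × Bool // ¬ q j} → P) := fun ω j => ω j
  have hcardq : Fintype.card {j : Fin g × Bool // ¬ q j} = 2 * g - k := by
    rw [Fintype.card_subtype_compl]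
    have h1 : Fintype.card (Fin g × Bool) = 2 * g := by simp [mul_comm]
    have h2 : Fintype.card {j : Fin g × Bool // q j} = k := by
      rw [Fintype.card_subtype]
      have : (univ.filter q) = J.image (fun i => (i, ε i)) := by
        ext ⟨i, b⟩
        simp only [q, Finset.mem_filter, Finset.mem_univ, true_and, Finset.mem_image,
          Prod.mk.injEq]
        constructor
        · rintro ⟨h1, h2⟩
          exact ⟨i, h1, rfl, h2.symm⟩
        · rintro ⟨i', h1, rfl, rfl⟩
          exact ⟨h1, rfl⟩
      rw [this, Finset.card_image_of_injective, hJk]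
      intro i i' h
      exact (Prod.mk.injEq _ _ _ _ ▸ h).1
    rw [h1, h2]
  refine (Finset.card_le_mul_card_image (f := f) s (k ! * (Y ^ k / y + 1)) ?_).trans ?_
  · intro z hz
    rw [Finset.mem_image] at hz
    obtain ⟨ω₀, hω₀, rfl⟩ := hz
    rw [hs, Finset.mem_filter] at hω₀
    set c := ∏ i ∈ univ \ J, (ω₀ (i, ε i) : ℕ) with hc
    have hccop : Nat.Coprime c y := by
      rw [hc]
      exact Nat.Coprime.prod_left fun i _ => hω₀.2.1 _
    have hkc : Fintype.card J = k := by simp [hJk]
    have := card_modEq hP hPY (ι := J) y c (U ω₀ ε') hccop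
    rw [hkc] at this
    refine le_trans ?_ this
    -- injection
    refine Finset.card_le_card_of_injOn (fun ω => fun i : J => ω ((i : Fin g), ε i)) ?_ ?_
    · intro ω hω
      simp only [Finset.coe_filter, Set.mem_ofPred_eq] at hω
      obtain ⟨hω1, hω2⟩ := hω
      rw [hs, Finset.mem_filter] at hω1
      simp only [Finset.coe_filter, Set.mem_ofPred_eq, Finset.mem_univ, true_and]
      have e1 : ∀ j, ¬ q j → ω j = ω₀ j := fun j hj => congrFun hω2 ⟨j, hj⟩
      have e2 : U ω ε' = U ω₀ ε' := by
        unfold U
        refine Finset.prod_congr rfl fun i _ => ?_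
        rw [e1]
        rintro ⟨h1, h2⟩
        have := hJ h1
        rw [Finset.mem_filter] at this
        exact this.2 h2.symm
      have e3 : U ω ε = c * ∏ i : J, (ω ((i : Fin g), ε i) : ℕ) := by
        unfold U
        rw [← Finset.prod_sdiff (Finset.subset_univ J), hc]
        congr 1
        · refine Finset.prod_congr rfl fun i hi => ?_
          rw [e1]
          rintro ⟨h1, _⟩
          rw [Finset.mem_sdiff] at hi
          exact hi.2 h1
        · rw [← Finset.prod_coe_sort]
      rw [← e3, ← e2]
      exact hω1.2.2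
    · intro ω hω ω' hω' h
      simp only [Finset.coe_filter, Set.mem_ofPred_eq] at hω hω'
      have e1 : ∀ j, ¬ q j → ω j = ω' j := fun j hj =>
        congrFun (hω.2.trans hω'.2.symm) ⟨j, hj⟩
      funext j
      by_cases hj : q j
      · obtain ⟨i, b⟩ := j
        obtain ⟨h1, h2⟩ := hj
        simp only at h1 h2
        subst h2
        exact congrFun h ⟨i, h1⟩
      · exact e1 j hj
  · refine Nat.mul_le_mul_left _ ?_
    calc (image f s).card ≤ (univ : Finset ({j : Fin g × Bool // ¬ q j} → P)).card :=
          Finset.card_le_card (Finset.subset_univ _)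
      _ = P.card ^ (2 * g - k) := by
          rw [Finset.card_univ, Fintype.card_fun, hcardq, Fintype.card_coe]

theorem sum_pow_le (g k : ℕ) (hg : 2 ≤ g) : ∑ j ∈ range k, g ^ j ≤ g ^ k := by
  induction k with
  | zero => simp
  | succ k ih =>
    rw [Finset.sum_range_succ, pow_succ]
    nlinarith [pow_pos (by omega : 0 < g) k]

theorem card_few {g : ℕ} (hg : 2 ≤ g) (k : ℕ) :
    (univ.filter (fun p : (Fin g → Bool) × (Fin g → Bool) =>
      (univ.filter (fun i => p.1 i ≠ p.2 i)).card < k)).card ≤ 2 ^ g * g ^ k := by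
  classical
  let D : (Fin g → Bool) × (Fin g → Bool) → Finset (Fin g) :=
    fun p => univ.filter (fun i => p.1 i ≠ p.2 i)
  let T : Finset (Finset (Fin g)) := (range k).biUnion (fun j => Finset.powersetCard j univ)
  have hT : T.card ≤ g ^ k := by
    calc T.card ≤ ∑ j ∈ range k, (Finset.powersetCard j (univ : Finset (Fin g))).card :=
          Finset.card_biUnion_le
      _ ≤ ∑ j ∈ range k, g ^ j := by
          refine Finset.sum_le_sum fun j _ => ?_
          rw [Finset.card_powersetCard, Finset.card_univ, Fintype.card_fin]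
          exact Nat.choose_le_pow g j
      _ ≤ g ^ k := sum_pow_le g k hg
  calc _ ≤ ((univ : Finset (Fin g → Bool)) ×ˢ T).card := by
        refine Finset.card_le_card_of_injOn (fun p => (p.1, D p)) ?_ ?_
        · intro p hp
          simp only [Finset.coe_filter, Set.mem_ofPred_eq, Finset.mem_univ, true_and] at hp
          simp only [Finset.coe_product, Set.mem_prod, Finset.mem_coe, Finset.mem_univ, true_and]
          rw [Finset.mem_biUnion]
          exact ⟨(D p).card, Finset.mem_range.mpr hp,
            Finset.mem_powersetCard.mpr ⟨Finset.subset_univ _, rfl⟩⟩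
        · rintro ⟨a, b⟩ _ ⟨a', b'⟩ _ h
          simp only [Prod.mk.injEq] at h ⊢
          obtain ⟨rfl, h2⟩ := h
          refine ⟨rfl, ?_⟩
          funext i
          have h3 : i ∈ D (a, b) ↔ i ∈ D (a, b') := by rw [h2]
          simp only [D, Finset.mem_filter, Finset.mem_univ, true_and] at h3
          cases h4 : a i <;> cases h5 : b i <;> cases h6 : b' i <;> simp_all
    _ = 2 ^ g * T.card := by
        rw [Finset.card_product, Finset.card_univ, Fintype.card_fun]
        simp
    _ ≤ 2 ^ g * g ^ k := Nat.mul_le_mul_left _ hT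

/-- expected number of collisions -/
theorem sum_coll {P : Finset ℕ} (hP : ∀ p ∈ P, p.Prime) {Y : ℕ} (hPY : ∀ p ∈ P, p ≤ Y)
    {g : ℕ} (hg : 2 ≤ g) (y : ℕ) (k : ℕ) :
    ∑ ω ∈ univ.filter (fun ω : Fin g × Bool → P => ∀ j, Nat.Coprime (ω j) y), coll y (U ω) ≤
      2 ^ (2 * g) * ((k ! * (Y ^ k / y + 1)) * P.card ^ (2 * g - k)) +
      2 ^ g * g ^ k * P.card ^ (2 * g) := by
  classical
  set G := univ.filter (fun ω : Fin g × Bool → P => ∀ j, Nat.Coprime (ω j) y) with hG
  have h1 : ∑ ω ∈ G, coll y (U ω) = ∑ p : (Fin g → Bool) × (Fin g → Bool),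
      (univ.filter (fun ω : Fin g × Bool → P => (∀ j, Nat.Coprime (ω j) y) ∧
      U ω p.1 ≡ U ω p.2 [MOD y])).card := by
    unfold coll
    simp only [Finset.card_filter]
    rw [Finset.sum_comm]
    refine Finset.sum_congr rfl fun p _ => ?_
    rw [hG, Finset.sum_filter]
    refine Finset.sum_congr rfl fun ω _ => ?_
    by_cases h : ∀ j, Nat.Coprime (ω j) y
    · rw [if_pos h]
      by_cases h2 : U ω p.1 ≡ U ω p.2 [MOD y]
      · rw [if_pos h2, if_pos ⟨h, h2⟩]
      · rw [if_neg h2, if_neg (fun hh => h2 hh.2)]
    · rw [if_neg h, if_neg (fun hh => h hh.1)]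
  rw [h1]
  rw [← Finset.sum_filter_add_sum_filter_not univ
    (fun p : (Fin g → Bool) × (Fin g → Bool) => (univ.filter (fun i => p.1 i ≠ p.2 i)).card < k),
    add_comm]
  refine Nat.add_le_add ?_ ?_
  · calc _ ≤ ∑ p ∈ univ.filter (fun p : (Fin g → Bool) × (Fin g → Bool) =>
            ¬ (univ.filter (fun i => p.1 i ≠ p.2 i)).card < k),
            ((k ! * (Y ^ k / y + 1)) * P.card ^ (2 * g - k)) := by
          refine Finset.sum_le_sum fun p hp => ?_
          rw [Finset.mem_filter] at hp
          exact card_pair hP hPY y p.1 p.2 k (by omega)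
      _ ≤ 2 ^ (2 * g) * ((k ! * (Y ^ k / y + 1)) * P.card ^ (2 * g - k)) := by
          rw [Finset.sum_const, smul_eq_mul]
          refine Nat.mul_le_mul_right _ ?_
          refine (Finset.card_le_univ _).trans (le_of_eq ?_)
          rw [Fintype.card_prod, Fintype.card_fun, Fintype.card_bool, Fintype.card_fin,
            ← pow_add]
          congr 1
          ring
  · calc _ ≤ ∑ p ∈ univ.filter (fun p : (Fin g → Bool) × (Fin g → Bool) =>
            (univ.filter (fun i => p.1 i ≠ p.2 i)).card < k), P.card ^ (2 * g) := by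
          refine Finset.sum_le_sum fun p hp => ?_
          refine (Finset.card_le_univ _).trans (le_of_eq ?_)
          rw [Fintype.card_fun, Fintype.card_prod, Fintype.card_bool, Fintype.card_fin,
            Fintype.card_coe, mul_comm g 2]
      _ ≤ 2 ^ g * g ^ k * P.card ^ (2 * g) := by
          rw [Finset.sum_const, smul_eq_mul]
          exact Nat.mul_le_mul_right _ (card_few hg k)

end Crest.Agent.Egypt
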