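import Mathlib
import Crest.Agent.Egypt.Count

set_option autoImplicit false

/-!
# Bad blocks are rare; existence of good atoms
-/

namespace Crest.Agent.Egypt

open Finset
open scoped Nat

open Classical in
/-- the bad blocks modulo `y` -/
noncomputable def Bad (P : Finset ℕ) (g y : ℕ) : Finset (Fin g × Bool → P) :=
  univ.filter (fun ω : Fin g × Bool → P => (∀ j, Nat.Coprime (ω j) y) ∧ ¬ Good y (U ω))

theorem card_bad {P : Finset ℕ} (hP : ∀ p ∈ P, p.Prime) {Y : ℕ} (hPY : ∀ p ∈ P, p ≤ Y)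
    (hPc : 0 < P.card)
    {g : ℕ} (hg : 2 ≤ g) (y : ℕ) (hy : 0 < y) (k : ℕ) (hk : k ≤ 2 * g) (h : ℝ) (hh : 1 ≤ h)
    (hh16 : h ^ 16 = y)
    (hpar : ((k ! * (Y ^ k / y + 1) : ℕ) : ℝ) / (P.card : ℝ) ^ k + (g : ℝ) ^ k / 2 ^ g ≤ h / y) :
    ((Bad P g y).card : ℝ) ≤ (P.card : ℝ) ^ (2 * g) / h ^ 3 := by
  classical
  have hsum := sum_coll hP hPY hg y k
  set G := univ.filter (fun ω : Fin g × Bool → P => ∀ j, Nat.Coprime (ω j) y) with hG
  have hsub : Bad P g y ⊆ G := by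
    intro ω hω
    unfold Bad at hω
    rw [Finset.mem_filter] at hω
    rw [hG, Finset.mem_filter]
    exact ⟨hω.1, hω.2.1⟩
  have hp0 : (0 : ℝ) < P.card := by exact_mod_cast hPc
  have hh0 : (0 : ℝ) < h := by linarith
  have hy0 : (0 : ℝ) < y := by exact_mod_cast hy
  have h1 : ∀ ω ∈ Bad P g y, (4 : ℝ) ^ g ≤ (coll y (U ω) : ℝ) * h ^ 12 := by
    intro ω hω
    unfold Bad at hω
    rw [Finset.mem_filter] at hω
    have h2 := hω.2.2
    unfold Good at h2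
    push Not at h2
    by_contra hlt
    push Not at hlt
    have hc0 : (0 : ℝ) ≤ (coll y (U ω) : ℝ) * h ^ 12 := by positivity
    have h3 : ((coll y (U ω) : ℝ) * h ^ 12) ^ 4 ≤ ((4 : ℝ) ^ g) ^ 4 :=
      pow_le_pow_left₀ hc0 hlt.le 4
    have h4 : ((coll y (U ω) : ℝ) * h ^ 12) ^ 4 = (coll y (U ω) : ℝ) ^ 4 * (y : ℝ) ^ 3 := by
      rw [← hh16]; ring
    have h5 : ((4 : ℝ) ^ g) ^ 4 = (Fintype.card (Fin g → Bool) : ℝ) ^ 8 := by
      rw [Fintype.card_fun, Fintype.card_bool, Fintype.card_fin]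
      push_cast
      rw [← pow_mul, ← pow_mul, show (4 : ℝ) = 2 ^ 2 by norm_num, ← pow_mul]
      congr 1
      ring
    rw [h4, h5] at h3
    linarith
  have h2 : ((Bad P g y).card : ℝ) * 4 ^ g ≤ h ^ 12 *
      ((2 ^ (2 * g) * ((k ! * (Y ^ k / y + 1)) * P.card ^ (2 * g - k)) +
      2 ^ g * g ^ k * P.card ^ (2 * g) : ℕ) : ℝ) := by
    calc ((Bad P g y).card : ℝ) * 4 ^ g = ∑ ω ∈ Bad P g y, (4 : ℝ) ^ g := by
          rw [Finset.sum_const, nsmul_eq_mul]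
      _ ≤ ∑ ω ∈ Bad P g y, (coll y (U ω) : ℝ) * h ^ 12 := Finset.sum_le_sum h1
      _ ≤ ∑ ω ∈ G, (coll y (U ω) : ℝ) * h ^ 12 :=
          Finset.sum_le_sum_of_subset_of_nonneg hsub (fun _ _ _ => by positivity)
      _ = h ^ 12 * ((∑ ω ∈ G, coll y (U ω) : ℕ) : ℝ) := by
          rw [← Finset.sum_mul]; push_cast; ring
      _ ≤ _ := by
          refine mul_le_mul_of_nonneg_left ?_ (by positivity)
          exact_mod_cast hsum
  -- rewrite right-hand side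
  have h3 : ((2 ^ (2 * g) * ((k ! * (Y ^ k / y + 1)) * P.card ^ (2 * g - k)) +
      2 ^ g * g ^ k * P.card ^ (2 * g) : ℕ) : ℝ) =
      4 ^ g * (P.card : ℝ) ^ (2 * g) *
        (((k ! * (Y ^ k / y + 1) : ℕ) : ℝ) / (P.card : ℝ) ^ k + (g : ℝ) ^ k / 2 ^ g) := by
    have e1 : (P.card : ℝ) ^ (2 * g) = (P.card : ℝ) ^ (2 * g - k) * (P.card : ℝ) ^ k := by
      rw [← pow_add]; congr 1; omega
    have e2 : (4 : ℝ) ^ g = 2 ^ g * 2 ^ g := by
      rw [← mul_pow]; norm_num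
    have e3 : (2 : ℝ) ^ (2 * g) = 2 ^ g * 2 ^ g := by
      rw [← pow_add]; congr 1; ring
    have e4 : (P.card : ℝ) ^ k ≠ 0 := by positivity
    have e5 : (2 : ℝ) ^ g ≠ 0 := by positivity
    push_cast
    rw [e3, e2, mul_add, e1]
    field_simp
  rw [h3] at h2
  have h4 : ((Bad P g y).card : ℝ) * 4 ^ g ≤ h ^ 12 * (4 ^ g * (P.card : ℝ) ^ (2 * g) * (h / y)) := by
    refine h2.trans ?_
    gcongr
  have h5 : h ^ 12 * (4 ^ g * (P.card : ℝ) ^ (2 * g) * (h / y)) =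
      ((P.card : ℝ) ^ (2 * g) / h ^ 3) * 4 ^ g := by
    rw [← hh16]
    field_simp
  rw [h5] at h4
  exact le_of_mul_le_mul_right h4 (by positivity)

theorem exists_blocks {P : Finset ℕ} {g : ℕ} (hPc : 0 < P.card) (Z D : ℕ) (hZ : 6 ≤ Z)
    (hbad : ∀ y, Z < y → y ≤ D → ∃ h : ℝ, 1 ≤ h ∧ h ^ 16 = y ∧
      ((Bad P g y).card : ℝ) ≤ (P.card : ℝ) ^ (2 * g) / h ^ 3) :
    ∃ W : Fin 32 → (Fin g × Bool → P), ∀ y, Z < y → y ≤ D →
      (∀ b j, Nat.Coprime (W b j) y) →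
      ∃ b b', b < b' ∧ Good y (U (W b)) ∧ Good y (U (W b')) := by
  classical
  by_contra hcon
  push Not at hcon
  set N : ℝ := (P.card : ℝ) ^ (2 * g) with hN
  have hN0 : 0 < N := by
    have : (0 : ℝ) < P.card := by exact_mod_cast hPc
    positivity
  have hNcard : (Fintype.card (Fin g × Bool → P) : ℝ) = N := by
    rw [Fintype.card_fun, Fintype.card_prod, Fintype.card_bool, Fintype.card_fin,
      Fintype.card_coe, mul_comm g 2]
    push_cast
    rfl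
  let A : ℕ → Fin 32 → Finset (Fin 32 → (Fin g × Bool → P)) := fun y b₀ =>
    Fintype.piFinset (fun b => if b = b₀ then univ else Bad P g y)
  have hcover : (univ : Finset (Fin 32 → (Fin g × Bool → P))) ⊆
      (Finset.Ioc Z D).biUnion (fun y => univ.biUnion (fun b₀ => A y b₀)) := by
    intro W _
    obtain ⟨y, hy1, hy2, hcop, hno⟩ := hcon W
    rw [Finset.mem_biUnion]
    refine ⟨y, Finset.mem_Ioc.mpr ⟨hy1, hy2⟩, ?_⟩
    rw [Finset.mem_biUnion]
    obtain ⟨b₀, hb₀⟩ : ∃ b₀, ∀ b, b ≠ b₀ → ¬ Good y (U (W b)) := by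
      by_cases hex : ∃ b, Good y (U (W b))
      · obtain ⟨b₀, hb₀⟩ := hex
        refine ⟨b₀, fun b hb hg => ?_⟩
        rcases lt_or_gt_of_ne hb with h | h
        · exact hno b b₀ h hg hb₀
        · exact hno b₀ b h hb₀ hg
      · push Not at hex
        exact ⟨0, fun b _ => hex b⟩
    refine ⟨b₀, Finset.mem_univ _, ?_⟩
    rw [Fintype.mem_piFinset]
    intro b
    split_ifs with h
    · exact Finset.mem_univ _
    · unfold Bad
      rw [Finset.mem_filter]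
      exact ⟨Finset.mem_univ _, hcop b, hb₀ b h⟩
  have hcardA : ∀ y b₀, ((A y b₀).card : ℝ) = N * ((Bad P g y).card : ℝ) ^ 31 := by
    intro y b₀
    simp only [A, Fintype.card_piFinset]
    rw [← Finset.mul_prod_erase _ _ (Finset.mem_univ b₀), if_pos rfl]
    rw [Finset.prod_congr rfl (g := fun _ => (Bad P g y).card)]
    · rw [Finset.prod_const, Finset.card_erase_of_mem (Finset.mem_univ _), Finset.card_univ,
        Finset.card_univ, Fintype.card_fin]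
      push_cast
      rw [← hNcard]
    · intro b hb
      rw [Finset.mem_erase] at hb
      rw [if_neg hb.1]
  have h1 : N ^ 32 ≤ ∑ y ∈ Finset.Ioc Z D, 32 * (N * ((Bad P g y).card : ℝ) ^ 31) := by
    have e1 : ((univ : Finset (Fin 32 → (Fin g × Bool → P))).card : ℝ) = N ^ 32 := by
      rw [Finset.card_univ, Fintype.card_fun, Fintype.card_fin]
      push_cast
      rw [← hNcard]
    rw [← e1]
    calc ((univ : Finset (Fin 32 → (Fin g × Bool → P))).card : ℝ)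
        ≤ ((((Finset.Ioc Z D).biUnion (fun y => univ.biUnion (fun b₀ => A y b₀))).card : ℕ) : ℝ) := by
          exact_mod_cast Finset.card_le_card hcover
      _ ≤ ((∑ y ∈ Finset.Ioc Z D, ∑ b₀, (A y b₀).card : ℕ) : ℝ) := by
          have : ((Finset.Ioc Z D).biUnion (fun y => univ.biUnion (fun b₀ => A y b₀))).card ≤
              ∑ y ∈ Finset.Ioc Z D, ∑ b₀, (A y b₀).card :=
            Finset.card_biUnion_le.trans (Finset.sum_le_sum fun y _ => Finset.card_biUnion_le)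
          exact_mod_cast this
      _ = ∑ y ∈ Finset.Ioc Z D, 32 * (N * ((Bad P g y).card : ℝ) ^ 31) := by
          push_cast
          refine Finset.sum_congr rfl fun y _ => ?_
          rw [Finset.sum_congr rfl (fun b₀ _ => hcardA y b₀), Finset.sum_const, Finset.card_univ,
            Fintype.card_fin, nsmul_eq_mul]
          norm_num
  have h2 : ∀ y ∈ Finset.Ioc Z D, 32 * (N * ((Bad P g y).card : ℝ) ^ 31) ≤
      N ^ 32 * (1 / (y : ℝ) ^ 3) := by
    intro y hy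
    rw [Finset.mem_Ioc] at hy
    obtain ⟨h, hh1, hh16, hb⟩ := hbad y hy.1 hy.2
    have hh0 : 0 < h := by linarith
    have hy6 : (6 : ℝ) ≤ y := by exact_mod_cast (by omega : 6 ≤ y)
    have e1 : ((Bad P g y).card : ℝ) ^ 31 ≤ (N / h ^ 3) ^ 31 :=
      pow_le_pow_left₀ (by positivity) hb 31
    have e2 : (N / h ^ 3) ^ 31 ≤ N ^ 31 / (y : ℝ) ^ 5 := by
      have e3 : (y : ℝ) ^ 5 ≤ (h ^ 3) ^ 31 := by
        rw [← hh16]
        calc (h ^ 16) ^ 5 = h ^ 80 := by ring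
          _ ≤ h ^ 93 := pow_le_pow_right₀ hh1 (by norm_num)
          _ = (h ^ 3) ^ 31 := by ring
      have e4 : (0 : ℝ) < (y : ℝ) ^ 5 := by positivity
      have e5 : (0 : ℝ) ≤ N ^ 31 := by positivity
      rw [div_pow]
      exact div_le_div_of_nonneg_left e5 e4 e3
    have hypos : (0 : ℝ) < y := by linarith
    calc 32 * (N * ((Bad P g y).card : ℝ) ^ 31) ≤ 32 * (N * (N ^ 31 / (y : ℝ) ^ 5)) :=
          mul_le_mul_of_nonneg_left (mul_le_mul_of_nonneg_left (e1.trans e2) hN0.le) (by norm_num)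
      _ = N ^ 32 * (32 / (y : ℝ) ^ 5) := by ring
      _ ≤ N ^ 32 * (1 / (y : ℝ) ^ 3) := by
          refine mul_le_mul_of_nonneg_left ?_ (by positivity)
          rw [div_le_div_iff₀ (by positivity) (by positivity)]
          have : (32 : ℝ) ≤ y ^ 2 := by nlinarith
          calc 32 * (y : ℝ) ^ 3 ≤ y ^ 2 * y ^ 3 := by gcongr
            _ = 1 * (y : ℝ) ^ 5 := by ring
  have h3 : ∑ y ∈ Finset.Ioc Z D, (1 : ℝ) / (y : ℝ) ^ 3 ≤
      ∑ d ∈ Finset.Icc 2 D, (1 : ℝ) / (d : ℝ) ^ 3 := by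
    refine Finset.sum_le_sum_of_subset_of_nonneg ?_ (fun _ _ _ => by positivity)
    intro y hy
    rw [Finset.mem_Ioc] at hy
    rw [Finset.mem_Icc]
    omega
  have h4 := sum_inv_cube D
  have h5 : N ^ 32 ≤ N ^ 32 * ∑ d ∈ Finset.Icc 2 D, (1 : ℝ) / (d : ℝ) ^ 3 := by
    calc N ^ 32 ≤ _ := h1
      _ ≤ ∑ y ∈ Finset.Ioc Z D, N ^ 32 * (1 / (y : ℝ) ^ 3) := Finset.sum_le_sum h2
      _ = N ^ 32 * ∑ y ∈ Finset.Ioc Z D, (1 / (y : ℝ) ^ 3) := by rw [Finset.mul_sum]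
      _ ≤ _ := mul_le_mul_of_nonneg_left h3 (by positivity)
  have h6 : 0 < N ^ 32 := by positivity
  nlinarith

end Crest.Agent.Egypt
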