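import Mathlib
import Crest.Agent.Egypt.Union

set_option autoImplicit false

/-!
# The prime atoms and the parameters
-/

namespace Crest.Agent.Egypt

open Finset
open scoped Nat

/-- the primes used as atoms -/
def PP (κ : ℕ) : Finset ℕ := (Finset.Icc (2 ^ (κ + 9)) (2 ^ (64 * κ))).filter Nat.Prime

theorem PP_prime (κ : ℕ) : ∀ p ∈ PP κ, p.Prime := fun _ hp => (Finset.mem_filter.mp hp).2

theorem PP_le (κ : ℕ) : ∀ p ∈ PP κ, p ≤ 2 ^ (64 * κ) := fun _ hp =>
  (Finset.mem_Icc.mp (Finset.mem_filter.mp hp).1).2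

theorem PP_ge (κ : ℕ) : ∀ p ∈ PP κ, 2 ^ (κ + 9) ≤ p := fun _ hp =>
  (Finset.mem_Icc.mp (Finset.mem_filter.mp hp).1).1

theorem pi_two_pow (n : ℕ) (hn : 1 ≤ n) :
    (2 : ℝ) ^ n - n - 1 ≤ (Nat.primeCounting (2 ^ n) : ℝ) * n := by
  have h := Chebyshev.pi_ge (2 ^ n)
  have hl2 : 0 < Real.log 2 := Real.log_pos (by norm_num)
  have hn0 : (0 : ℝ) < n := by exact_mod_cast hn
  have h1 : Real.log ((2 ^ n : ℕ) : ℝ) = n * Real.log 2 := by
    push_cast
    rw [Real.log_pow]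
  have h2 : Real.log (((2 ^ n : ℕ) : ℝ) + 1) ≤ (n + 1) * Real.log 2 := by
    have : ((n : ℝ) + 1) * Real.log 2 = Real.log ((2 : ℝ) ^ (n + 1)) := by
      rw [Real.log_pow]; push_cast; ring
    rw [this]
    refine Real.log_le_log (by positivity) ?_
    push_cast
    rw [pow_succ]
    have : (1 : ℝ) ≤ 2 ^ n := one_le_pow₀ (by norm_num)
    linarith
  rw [h1, div_le_iff₀ (by positivity)] at h
  have h3 : ((2 : ℝ) ^ n - n - 1) * Real.log 2 ≤
      ((Nat.primeCounting (2 ^ n) : ℝ) * n) * Real.log 2 := by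
    push_cast at h h2
    nlinarith
  exact le_of_mul_le_mul_right h3 hl2

theorem PP_card (κ : ℕ) (hκ : 14 ≤ κ) :
    (2 : ℝ) ^ (64 * κ) ≤ ((PP κ).card : ℝ) * (256 * κ) := by
  have h := pi_two_pow (64 * κ) (by omega)
  have h1 : Nat.primeCounting (2 ^ (64 * κ)) ≤ (PP κ).card + 2 ^ (κ + 9) := by
    rw [Nat.primeCounting, Nat.primeCounting', Nat.count_eq_card_filter_range]
    calc ((range (2 ^ (64 * κ) + 1)).filter Nat.Prime).card
        ≤ (PP κ ∪ range (2 ^ (κ + 9))).card := by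
          refine Finset.card_le_card ?_
          intro p hp
          rw [Finset.mem_filter, Finset.mem_range] at hp
          rw [Finset.mem_union]
          rcases Nat.lt_or_ge p (2 ^ (κ + 9)) with h | h
          · right; exact Finset.mem_range.mpr h
          · left
            exact Finset.mem_filter.mpr ⟨Finset.mem_Icc.mpr ⟨h, by omega⟩, hp.2⟩
      _ ≤ (PP κ).card + (range (2 ^ (κ + 9))).card := Finset.card_union_le _ _
      _ = _ := by rw [Finset.card_range]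
  have h1' : (Nat.primeCounting (2 ^ (64 * κ)) : ℝ) ≤ (PP κ).card + 2 ^ (κ + 9) := by
    exact_mod_cast h1
  have hκ0 : (0 : ℝ) < κ := by exact_mod_cast (by omega : 0 < κ)
  have h2 : (κ : ℝ) ≤ 2 ^ κ := by exact_mod_cast (Nat.lt_two_pow_self).le
  have h3 : (256 : ℝ) * κ * 2 ^ (κ + 9) ≤ 2 ^ (64 * κ) := by
    calc (256 : ℝ) * κ * 2 ^ (κ + 9) ≤ 2 ^ 8 * 2 ^ κ * 2 ^ (κ + 9) := by
          have : (256 : ℝ) = 2 ^ 8 := by norm_num
          rw [this]
          gcongr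
      _ = 2 ^ (8 + κ + (κ + 9)) := by rw [← pow_add, ← pow_add]
      _ ≤ 2 ^ (64 * κ) := pow_le_pow_right₀ (by norm_num) (by omega)
  have h4 : (256 : ℝ) * κ + 4 ≤ 2 ^ (64 * κ) := by
    calc (256 : ℝ) * κ + 4 ≤ 256 * κ * 2 ^ (κ + 9) := by
          have : (1 : ℝ) ≤ 2 ^ κ := one_le_pow₀ (by norm_num)
          have h14 : (14 : ℝ) ≤ κ := by exact_mod_cast hκ
          rw [pow_add]
          nlinarith
      _ ≤ _ := h3
  push_cast at h
  have h5 : (2 : ℝ) ^ (64 * κ) - 64 * κ - 1 ≤ ((PP κ).card + 2 ^ (κ + 9)) * (64 * κ) := by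
    refine h.trans ?_
    exact mul_le_mul_of_nonneg_right h1' (by positivity)
  nlinarith

theorem PP_pos (κ : ℕ) (hκ : 14 ≤ κ) : 0 < (PP κ).card := by
  have hcard := PP_card κ hκ
  rcases Nat.eq_zero_or_pos (PP κ).card with h | h
  · rw [h] at hcard
    have : (0 : ℝ) < 2 ^ (64 * κ) := by positivity
    norm_num at hcard
    linarith
  · exact h

/-- numeric inequalities -/
theorem param_nat (κ : ℕ) (hκ : 14 ≤ κ) (y : ℕ) (hy1 : (512 * κ + 1) ^ 16 < y)
    (hy2 : y ≤ 2 ^ (2 ^ κ)) (n k R : ℕ) (hn : n = 64 * κ) (hR : R = 256 * κ)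
    (hk : k = Nat.log 2 y / n + 1) :
    k ≤ 2 * 2 ^ (κ + 2) ∧ y ≤ (2 ^ n) ^ k ∧ y * (2 ^ (κ + 2)) ^ k ≤ 2 ^ (2 ^ (κ + 2)) ∧
      (2 * (k ! * R ^ k) + 1) ^ 16 ≤ y := by
  have hlog1 : 2 ^ Nat.log 2 y ≤ y := Nat.pow_log_le_self 2 (by omega)
  have hlog2 : y < 2 ^ (Nat.log 2 y + 1) := Nat.lt_pow_succ_log_self (by norm_num) y
  have hlog3 : Nat.log 2 y ≤ 2 ^ κ := by
    calc Nat.log 2 y ≤ Nat.log 2 (2 ^ (2 ^ κ)) := Nat.log_mono_right hy2
      _ = 2 ^ κ := Nat.log_pow (by norm_num) _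
  have hnk : n * (k - 1) ≤ Nat.log 2 y := by
    rw [hk, Nat.add_sub_cancel]
    exact Nat.mul_div_le _ _
  have hnk2 : Nat.log 2 y < n * k := by
    rw [hk, mul_add, mul_one]
    have := Nat.lt_div_mul_add (a := Nat.log 2 y) (b := n) (by omega)
    rw [mul_comm] at this
    exact this
  have hk1 : 1 ≤ k := by rw [hk]; exact Nat.le_add_left 1 _
  have h2κ : κ + 2 ≤ 2 ^ κ := by
    have : ∀ m : ℕ, 2 ≤ m → m + 2 ≤ 2 ^ m := by
      intro m hm
      induction m, hm using Nat.le_induction with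
      | base => norm_num
      | succ m hm ih => rw [pow_succ]; omega
    exact this κ (by omega)
  have h4κ : 2 ^ (κ + 2) = 4 * 2 ^ κ := by rw [pow_add]; ring
  have hkκ : k ≤ 2 ^ κ := by
    have h1 : 64 * (k - 1) ≤ n * (k - 1) := Nat.mul_le_mul_right _ (by omega)
    have h2 : 2 ≤ 2 ^ κ := by omega
    omega
  refine ⟨by omega, ?_, ?_, ?_⟩
  · rw [← pow_mul]
    exact hlog2.le.trans (Nat.pow_le_pow_right (by norm_num) (by omega))
  · have h1 : (κ + 2) * k ≤ 2 * 2 ^ κ := by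
      have e1 : (κ + 2) * k = (κ + 2) * (k - 1) + (κ + 2) := by
        obtain ⟨j, hj⟩ : ∃ j, k = j + 1 := ⟨k - 1, by omega⟩
        rw [hj, Nat.add_sub_cancel]
        ring
      have e2 : (κ + 2) * (k - 1) ≤ n * (k - 1) := Nat.mul_le_mul_right _ (by omega)
      omega
    calc y * (2 ^ (κ + 2)) ^ k ≤ 2 ^ (2 ^ κ) * 2 ^ ((κ + 2) * k) := by
          rw [← pow_mul]
          exact Nat.mul_le_mul_right _ hy2
      _ = 2 ^ (2 ^ κ + (κ + 2) * k) := by rw [← pow_add]
      _ ≤ 2 ^ (2 ^ (κ + 2)) := by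
          refine Nat.pow_le_pow_right (by norm_num) ?_
          omega
  · rcases Nat.lt_or_ge k 2 with hk2 | hk2
    · have : k = 1 := by omega
      rw [this, Nat.factorial_one, one_mul, pow_one]
      have e : 2 * R + 1 = 512 * κ + 1 := by omega
      rw [e]
      exact hy1.le
    · have h1 : 2 ^ (n * (k - 1)) ≤ y :=
        (Nat.pow_le_pow_right (by norm_num) hnk).trans hlog1
      refine le_trans ?_ h1
      have h2 : 2 * (k ! * R ^ k) + 1 ≤ (4 * (k * R)) ^ k := by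
        have e1 : k ! * R ^ k ≤ (k * R) ^ k := by
          calc k ! * R ^ k ≤ k ^ k * R ^ k := Nat.mul_le_mul_right _ (Nat.factorial_le_pow k)
            _ = (k * R) ^ k := (mul_pow k R k).symm
        have e2 : 1 ≤ (k * R) ^ k := Nat.one_le_pow _ _ (Nat.mul_pos (by omega) (by omega))
        have e3 : 4 * (k * R) ^ k ≤ (4 * (k * R)) ^ k := by
          calc 4 * (k * R) ^ k ≤ 4 ^ k * (k * R) ^ k := by
                refine Nat.mul_le_mul_right _ ?_
                calc 4 = 4 ^ 1 := by norm_num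
                  _ ≤ 4 ^ k := Nat.pow_le_pow_right (by norm_num) hk1
            _ = (4 * (k * R)) ^ k := (mul_pow 4 (k * R) k).symm
        omega
      have h3 : 4 * (k * R) ≤ 2 ^ (2 * κ) := by
        have e1 : 1024 * κ ≤ 2 ^ κ := by
          have : ∀ m : ℕ, 14 ≤ m → 1024 * m ≤ 2 ^ m := by
            intro m hm
            induction m, hm using Nat.le_induction with
            | base => norm_num
            | succ m hm ih => rw [pow_succ]; omega
          exact this κ hκ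
        calc 4 * (k * R) = k * (1024 * κ) := by rw [hR]; ring
          _ ≤ 2 ^ κ * 2 ^ κ := Nat.mul_le_mul hkκ e1
          _ = 2 ^ (2 * κ) := by rw [← pow_add]; congr 1; ring
      calc (2 * (k ! * R ^ k) + 1) ^ 16 ≤ ((4 * (k * R)) ^ k) ^ 16 :=
            Nat.pow_le_pow_left h2 16
        _ ≤ ((2 ^ (2 * κ)) ^ k) ^ 16 :=
            Nat.pow_le_pow_left (Nat.pow_le_pow_left h3 k) 16
        _ = 2 ^ (2 * κ * k * 16) := by rw [← pow_mul, ← pow_mul]; congr 1; ring
        _ ≤ 2 ^ (n * (k - 1)) := by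
            refine Nat.pow_le_pow_right (by norm_num) ?_
            obtain ⟨j, hj⟩ : ∃ j, k = j + 2 := ⟨k - 2, by omega⟩
            rw [hj, show j + 2 - 1 = j + 1 by omega, hn]
            nlinarith

theorem param_real (p y h R Yk q Q f k' : ℝ) (hp : 0 < p) (hy : 0 < y) (hf : 0 ≤ f)
    (h1 : q * y ≤ Yk) (h2 : y ≤ Yk) (h3 : Yk ≤ p * R) (h4 : 2 * (f * R) + 1 ≤ h)
    (hQ : 0 < Q) (h5 : y * k' ≤ Q) :
    f * (q + 1) / p + k' / Q ≤ h / y := by
  have t1 : f * (q + 1) / p ≤ (2 * (f * R)) / y := by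
    rw [div_le_div_iff₀ hp hy]
    have e1 : (q + 1) * y ≤ 2 * (p * R) := by
      rw [add_mul, one_mul]
      linarith
    have := mul_le_mul_of_nonneg_left e1 hf
    linarith
  have t2 : k' / Q ≤ 1 / y := by
    rw [div_le_div_iff₀ hQ hy]
    linarith
  calc _ ≤ (2 * (f * R)) / y + 1 / y := add_le_add t1 t2
    _ = (2 * (f * R) + 1) / y := by ring
    _ ≤ h / y := by
      rw [div_le_div_iff_of_pos_right hy]
      exact h4

end Crest.Agent.Egypt
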