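import Mathlib
import Crest.Agent.Egypt.Param

set_option autoImplicit false

namespace Crest.Agent.Egypt

open Finset
open scoped Nat

theorem root16 (y : ℕ) (hy : 0 < y) : ∃ h : ℝ, 1 ≤ h ∧ h ^ 16 = y := by
  have hyR : (0 : ℝ) < y := by exact_mod_cast hy
  have hy1R : (1 : ℝ) ≤ y := by exact_mod_cast hy
  refine ⟨(y : ℝ) ^ ((1 : ℝ) / 16), Real.one_le_rpow hy1R (by norm_num), ?_⟩
  rw [← Real.rpow_natCast, ← Real.rpow_mul hyR.le]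
  norm_num

theorem param_aux (y n k R g pc : ℕ) (h : ℝ) (hy0 : 0 < y) (hpc : 0 < pc)
    (hcard : (2 : ℝ) ^ n ≤ (pc : ℝ) * R) (hh : 1 ≤ h) (hh16 : h ^ 16 = y)
    (hyY : y ≤ (2 ^ n) ^ k) (hyg : y * g ^ k ≤ 2 ^ g)
    (hq : (2 * (k ! * R ^ k) + 1) ^ 16 ≤ y) :
    ((k ! * ((2 ^ n) ^ k / y + 1) : ℕ) : ℝ) / (pc : ℝ) ^ k + (g : ℝ) ^ k / 2 ^ g ≤ h / y := by
  have hyR : (0 : ℝ) < y := by exact_mod_cast hy0
  have hpR : (0 : ℝ) < pc := by exact_mod_cast hpc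
  have hhR : 2 * ((k ! : ℝ) * (R : ℝ) ^ k) + 1 ≤ h := by
    have e1 : (2 * ((k ! : ℝ) * (R : ℝ) ^ k) + 1) ^ 16 ≤ h ^ 16 := by
      rw [hh16]
      exact_mod_cast hq
    exact le_of_pow_le_pow_left₀ (by norm_num) (by linarith) e1
  have hdiv : (((2 ^ n) ^ k / y : ℕ) : ℝ) * y ≤ ((2 : ℝ) ^ n) ^ k := by
    have : (2 ^ n) ^ k / y * y ≤ (2 ^ n) ^ k := Nat.div_mul_le_self _ _
    exact_mod_cast this
  have hyYR : (y : ℝ) ≤ ((2 : ℝ) ^ n) ^ k := by exact_mod_cast hyY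
  have hYR : ((2 : ℝ) ^ n) ^ k ≤ (pc : ℝ) ^ k * (R : ℝ) ^ k := by
    rw [← mul_pow]
    exact pow_le_pow_left₀ (by positivity) hcard k
  have h5 : (y : ℝ) * (g : ℝ) ^ k ≤ 2 ^ g := by exact_mod_cast hyg
  have := param_real ((pc : ℝ) ^ k) y h ((R : ℝ) ^ k) (((2 : ℝ) ^ n) ^ k)
    (((2 ^ n) ^ k / y : ℕ) : ℝ) (2 ^ g) (k ! : ℝ) ((g : ℝ) ^ k) (by positivity) hyR (by positivity)
    hdiv hyYR hYR hhR (by positivity) h5
  rw [Nat.cast_mul, Nat.cast_add, Nat.cast_one]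
  exact this

/-- the main inequality for the parameters -/
theorem param (κ : ℕ) (hκ : 14 ≤ κ) (y : ℕ) (hy1 : (512 * κ + 1) ^ 16 < y)
    (hy2 : y ≤ 2 ^ (2 ^ κ)) :
    ∃ h : ℝ, 1 ≤ h ∧ h ^ 16 = y ∧
      ((Bad (PP κ) (2 ^ (κ + 2)) y).card : ℝ) ≤
        ((PP κ).card : ℝ) ^ (2 * 2 ^ (κ + 2)) / h ^ 3 := by
  have hy0 : 0 < y := by omega
  obtain ⟨h, hh1, hh16⟩ := root16 y hy0
  refine ⟨h, hh1, hh16, ?_⟩
  obtain ⟨n, hn⟩ : ∃ n, n = 64 * κ := ⟨_, rfl⟩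
  obtain ⟨R, hR⟩ : ∃ R, R = 256 * κ := ⟨_, rfl⟩
  obtain ⟨k, hk⟩ : ∃ k, k = Nat.log 2 y / n + 1 := ⟨_, rfl⟩
  obtain ⟨g, hg⟩ : ∃ g, g = 2 ^ (κ + 2) := ⟨_, rfl⟩
  obtain ⟨h1, h2, h3, h4⟩ := param_nat κ hκ y hy1 hy2 n k R hn hR hk
  have hcard := PP_card κ hκ
  rw [← hn] at hcard
  have hPc := PP_pos κ hκ
  have hPP := PP_le κ
  rw [← hn] at hPP
  rw [← hg] at h1 h3 ⊢
  have hg2 : 2 ≤ g := by
    rw [hg]
    calc 2 = 2 ^ 1 := by norm_num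
      _ ≤ 2 ^ (κ + 2) := Nat.pow_le_pow_right (by norm_num) (by omega)
  have hcard' : (2 : ℝ) ^ n ≤ ((PP κ).card : ℝ) * R := by
    rw [hR]
    push_cast
    exact hcard
  exact card_bad (Y := 2 ^ n) (PP_prime κ) hPP hPc hg2 y hy0 k h1 h hh1 hh16
    (param_aux y n k R g (PP κ).card h hy0 hPc hcard' hh1 hh16 h2 h3 h4)

theorem exp_beats (p : ℕ) : ∃ κ₀ : ℕ, ∀ κ ≥ κ₀, (512 * κ + 1) ^ p ≤ 2 ^ κ := by
  have h := tendsto_pow_const_div_const_pow_of_one_lt p (r := (2 : ℝ)) (by norm_num)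
  have h2 : (0 : ℝ) < 1 / 513 ^ p := by positivity
  have h3 := (h.eventually (gt_mem_nhds h2)).and (Filter.eventually_ge_atTop 1)
  rw [Filter.eventually_atTop] at h3
  obtain ⟨N, hN⟩ := h3
  refine ⟨N, fun κ hκ => ?_⟩
  obtain ⟨h4, h5⟩ := hN κ hκ
  rw [div_lt_div_iff₀ (by positivity) (by positivity), one_mul] at h4
  have h6 : κ ^ p * 513 ^ p < 2 ^ κ := by exact_mod_cast h4
  calc (512 * κ + 1) ^ p ≤ (κ * 513) ^ p := Nat.pow_le_pow_left (by omega) p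
    _ = κ ^ p * 513 ^ p := mul_pow _ _ _
    _ ≤ 2 ^ κ := h6.le

theorem size_bound (κ g M : ℕ) (hg : g = 2 ^ (κ + 2)) (hκ : 1 ≤ κ) (hMκ : M ^ 2 ≤ 2 ^ κ)
    (T : Fin 32 → ℕ) (hT : ∀ b, T b ≤ 2 ^ (64 * κ * (2 * g))) :
    M ! * ∏ b, T b ≤ 2 ^ (16385 * κ * 2 ^ κ) := by
  have h1 : M ! ≤ 2 ^ (κ * 2 ^ κ) := by
    calc M ! ≤ M ^ M := Nat.factorial_le_pow M
      _ ≤ (2 ^ M) ^ M := Nat.pow_le_pow_left (Nat.lt_two_pow_self).le M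
      _ = 2 ^ (M ^ 2) := by rw [← pow_mul]; congr 1; ring
      _ ≤ 2 ^ (κ * 2 ^ κ) := by
          refine Nat.pow_le_pow_right (by norm_num) (hMκ.trans ?_)
          exact Nat.le_mul_of_pos_left _ (by omega)
  have h3 : ∏ b, T b ≤ 2 ^ (16384 * (κ * 2 ^ κ)) := by
    calc ∏ b, T b ≤ ∏ _b : Fin 32, 2 ^ (64 * κ * (2 * g)) :=
          Finset.prod_le_prod' fun b _ => hT b
      _ = 2 ^ (64 * κ * (2 * g) * 32) := by
          rw [Finset.prod_const, Finset.card_univ, Fintype.card_fin, ← pow_mul]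
      _ = 2 ^ (16384 * (κ * 2 ^ κ)) := by
          have : 64 * κ * (2 * g) * 32 = 16384 * (κ * 2 ^ κ) := by
            rw [hg, pow_add]
            ring
          rw [this]
  calc M ! * ∏ b, T b ≤ 2 ^ (κ * 2 ^ κ) * 2 ^ (16384 * (κ * 2 ^ κ)) := Nat.mul_le_mul h1 h3
    _ = 2 ^ (16385 * κ * 2 ^ κ) := by
      have : κ * 2 ^ κ + 16384 * (κ * 2 ^ κ) = 16385 * κ * 2 ^ κ := by ring
      rw [← pow_add, this]

theorem prod_bound {P : Finset ℕ} {Y g : ℕ} (hPY : ∀ p ∈ P, p ≤ Y) (w : Fin g × Bool → P) :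
    ∏ j, (w j : ℕ) ≤ Y ^ (2 * g) := by
  calc ∏ j, (w j : ℕ) ≤ ∏ _j : Fin g × Bool, Y :=
        Finset.prod_le_prod' fun j _ => hPY _ (w j).2
    _ = Y ^ (2 * g) := by
        rw [Finset.prod_const, Finset.card_univ, Fintype.card_prod, Fintype.card_fin,
          Fintype.card_bool]
        congr 1
        ring

theorem U_dvd {P : Finset ℕ} {g : ℕ} (w : Fin g × Bool → P) (ε : Fin g → Bool) :
    U w ε ∣ ∏ j, (w j : ℕ) := by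
  classical
  unfold U
  have e1 : ∏ i, (w (i, ε i) : ℕ) =
      ∏ j ∈ univ.image (fun i : Fin g => (i, ε i)), (w j : ℕ) := by
    rw [Finset.prod_image]
    intro i _ i' _ h
    exact (Prod.mk.inj h).1
  rw [e1]
  exact Finset.prod_dvd_prod_of_subset _ _ _ (Finset.subset_univ _)

theorem T_dvd (T : Fin 32 → ℕ) (b b' : Fin 32) (h : b < b') : T b * T b' ∣ ∏ c, T c := by
  have : T b * T b' = ∏ c ∈ ({b, b'} : Finset (Fin 32)), T c := by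
    rw [Finset.prod_pair (ne_of_lt h)]
  rw [this]
  exact Finset.prod_dvd_prod_of_subset _ _ _ (Finset.subset_univ _)

end Crest.Agent.Egypt
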