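import Mathlib
import Crest.Agent.Egypt.Param2
import Crest.Agent.Egypt.Assemble

set_option autoImplicit false

/-!
# The key lemma
-/

namespace Crest.Agent.Egypt

open Finset
open scoped Nat

theorem key : KL 16385 (16 * (32 * 32)) 9 := by
  classical
  obtain ⟨κ₁, hκ₁⟩ := exp_beats 64
  refine ⟨κ₁ + 14, fun κ hκ => ?_⟩
  obtain ⟨g, hg⟩ : ∃ g, g = 2 ^ (κ + 2) := ⟨_, rfl⟩
  obtain ⟨Z, hZ⟩ : ∃ Z, Z = (512 * κ + 1) ^ 16 := ⟨_, rfl⟩
  obtain ⟨M, hM⟩ : ∃ M, M = Z ^ 2 := ⟨_, rfl⟩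
  have hZ6 : 6 ≤ Z := by
    calc 6 ≤ 512 * κ + 1 := by omega
      _ = (512 * κ + 1) ^ 1 := (pow_one _).symm
      _ ≤ Z := by rw [hZ]; exact Nat.pow_le_pow_right (by omega) (by norm_num)
  have hM1 : 1 ≤ M := by rw [hM]; exact Nat.one_le_pow _ _ (by omega)
  have hMκ : M ^ 2 ≤ 2 ^ κ := by
    calc M ^ 2 = (512 * κ + 1) ^ 64 := by rw [hM, hZ, ← pow_mul, ← pow_mul]
      _ ≤ 2 ^ κ := hκ₁ κ (by omega)
  have hPc := PP_pos κ (by omega)
  obtain ⟨W, hW⟩ := exists_blocks (g := g) hPc Z (2 ^ (2 ^ κ)) hZ6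
    (fun y hy1 hy2 => by
      rw [hg]
      rw [hZ] at hy1
      exact param κ (by omega) y hy1 hy2)
  have hTpos : ∀ b, 0 < ∏ j, (W b j : ℕ) := fun b =>
    Finset.prod_pos fun j _ => (PP_prime κ _ (W b j).2).pos
  have hT2 : ∀ b, ∏ j, (W b j : ℕ) ≤ 2 ^ (64 * κ * (2 * g)) := by
    intro b
    refine (prod_bound (PP_le κ) (W b)).trans ?_
    rw [← pow_mul]
  refine ⟨M ! * ∏ b, ∏ j, (W b j : ℕ),
    univ.image (fun p : Fin 32 × (Fin g × Bool) => (W p.1 p.2 : ℕ)), ?_, ?_, ?_, ?_, ?_⟩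
  · exact Nat.mul_pos (Nat.factorial_pos _) (Finset.prod_pos fun b _ => hTpos b)
  · exact size_bound κ g M hg (by omega) hMκ (fun b => ∏ j, (W b j : ℕ)) hT2
  · calc _ ≤ (univ : Finset (Fin 32 × (Fin g × Bool))).card := Finset.card_image_le
      _ = 32 * (g * 2) := by
          rw [Finset.card_univ, Fintype.card_prod, Fintype.card_prod, Fintype.card_fin,
            Fintype.card_fin, Fintype.card_bool]
      _ = 2 ^ (κ + 8) := by
          rw [hg, pow_add, pow_add]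
          ring
      _ < 2 ^ (κ + 9) := Nat.pow_lt_pow_right (by norm_num) (by omega)
  · intro q hq
    rw [Finset.mem_image] at hq
    obtain ⟨p, _, rfl⟩ := hq
    exact PP_ge κ _ (W p.1 p.2).2
  · intro y hy1 hy2 hy3
    have hcop : ∀ b j, Nat.Coprime (W b j) y := by
      intro b j
      rw [(PP_prime κ _ (W b j).2).coprime_iff_not_dvd]
      exact hy3 _ (Finset.mem_image.mpr ⟨(b, j), Finset.mem_univ _, rfl⟩)
    refine divides_sum 32 (fun b => U (W b)) _ M Z y (by norm_num) (by omega) (le_of_eq hM.symm)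
      hM1 ?_ ?_ ?_
    · intro b b' hbb' i j
      refine Dvd.dvd.mul_left ?_ _
      exact (Nat.mul_dvd_mul (U_dvd (W b) i) (U_dvd (W b') j)).trans
        (T_dvd (fun b => ∏ j, (W b j : ℕ)) b b' hbb')
    · intro t ht
      refine Dvd.dvd.mul_right ?_ _
      exact Nat.dvd_factorial (by omega) (by omega)
    · intro d hd hZd
      have hdy : d ≤ y := Nat.le_of_dvd (by omega) hd
      exact hW d hZd (hdy.trans hy2) (fun b j => (hcop b j).coprime_dvd_right hd)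

end Crest.Agent.Egypt
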